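import Vale.Agent.P217.Easy.Ideals
import Vale.Agent.P217.SpecPos
import Vale.Agent.P202.RingSide.Complete

/-!
P217, POINT: the `p`-series modulo `I_h` is a series `g` in `x ^ (p ^ h)`; its Weierstrass
polynomial over `F_q[[u_h, …, u_{n-1}]]`.
-/

noncomputable section

namespace Vale.Agent.P217.Point

open IsLocalRing Finset

variable {p n : ℕ} [Fact p.Prime] (h : ℕ)

/-- The ring `F_q[[u_h, …, u_{n-1}]]`. -/
abbrev Ser (p n h : ℕ) [Fact p.Prime] : Type := MvPowerSeries (High n h) (Res p n)

/-- The variable `u_{h+j}` as an element of `High`. -/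
def highVar (hh : 1 ≤ h) (j : Fin (n - h)) : High n h :=
  ⟨slot n h hh j, show h ≤ h - 1 + j.val + 1 by omega⟩

lemma highVar_bijective (hh : 1 ≤ h) : Function.Bijective (highVar (n := n) h hh) := by
  refine ⟨fun a b hab => ?_, fun ⟨i, hi⟩ => ?_⟩
  · have := congrArg (fun x : High n h => (x.1 : ℕ)) hab
    simp only [highVar, slot] at this
    exact Fin.ext (by omega)
  · refine ⟨⟨i.val + 1 - h, by have := i.isLt; omega⟩, Subtype.ext (Fin.ext ?_)⟩
    show h - 1 + (i.val + 1 - h) = i.val
    omega

instance : PerfectRing (Res p n) p := PerfectRing.ofSurjective _ p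
  (Finite.injective_iff_surjective.1 (frobenius (Res p n) p).injective)

theorem isAdicComplete_ser : IsAdicComplete (maximalIdeal (Ser p n h)) (Ser p n h) := by
  rw [Vale.Agent.P202.maximalIdeal_mvPowerSeries]
  infer_instance

theorem redHeight_surjective : Function.Surjective (redHeight p n h) := fun f => by
  classical
  choose w hw using fun c : Res p n => (⟨WittVector.teichmuller p c, by simp⟩ :
    ∃ w, WittVector.constantCoeff w = c)
  let F : LT p n := fun d => if hd : ∀ i : Fin (n - 1), i.val + 1 < h → d i = 0 then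
    w (MvPowerSeries.coeff (exists_high hd).choose f) else 0
  refine ⟨F, MvPowerSeries.ext fun d => ?_⟩
  have hd : ∀ i : Fin (n - 1), i.val + 1 < h →
      Finsupp.embDomain (Function.Embedding.subtype _) d i = 0 := fun i hi => by
    refine Finsupp.embDomain_of_notMem_range _ _ _ ?_
    rintro ⟨⟨j, hj⟩, rfl⟩
    change j.val + 1 < h at hi
    omega
  rw [coeff_redHeight, show MvPowerSeries.coeff
    (Finsupp.embDomain (Function.Embedding.subtype _) d) F = _ from dif_pos hd, hw,
    Finsupp.embDomain_injective _ (exists_high hd).choose_spec]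

/-- The series `g` with `e ≡ g (x ^ (p ^ h))`. -/
def gser (e : PowerSeries (LT p n)) : PowerSeries (Ser p n h) :=
  PowerSeries.mk fun m => redHeight p n h (PowerSeries.coeff (p ^ h * m) e)

variable {h} {e : PowerSeries (LT p n)}

lemma map_redHeight_eq (hf : PSeriesFacts p n e) (h1 : 1 ≤ h) (hn : h ≤ n) :
    PowerSeries.map (redHeight p n h) e =
      PowerSeries.expand (p ^ h) (pow_ne_zero h (Fact.out : p.Prime).ne_zero) (gser h e) := by
  refine PowerSeries.ext fun b => ?_
  rw [PowerSeries.coeff_map, PowerSeries.coeff_expand]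
  split_ifs with hb
  · obtain ⟨c, rfl⟩ := hb
    rw [gser, PowerSeries.coeff_mk, Nat.mul_div_cancel_left _ (pow_pos (Fact.out : p.Prime).pos h)]
  · rw [← RingHom.mem_ker, ← heightIdeal_eq_ker h1 hn]
    exact hf.frobenius h hn b hb

lemma red_apply (a : LT p n) :
    red p n a = WittVector.constantCoeff (MvPowerSeries.constantCoeff a) := rfl

lemma constantCoeff_redHeight (a : LT p n) :
    MvPowerSeries.constantCoeff (redHeight p n h a) = red p n a := by
  rw [← MvPowerSeries.coeff_zero_eq_constantCoeff_apply, coeff_redHeight, Finsupp.embDomain_zero,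
    MvPowerSeries.coeff_zero_eq_constantCoeff_apply, red_apply]

lemma red_coeff (hf : PSeriesFacts p n e) (b : ℕ) :
    red p n (PowerSeries.coeff b e) = if b = p ^ n then 1 else 0 := by
  rw [← PowerSeries.coeff_map, hf.special, PowerSeries.coeff_X_pow]

/-- Modulo the earlier variables the coefficient at `x ^ (p ^ i)` is `u_i`. -/
theorem coeff_pow_sub_mem (hf : PSeriesFacts p n e) {i : High n h} :
    redHeight p n h (PowerSeries.coeff (p ^ (i.1.val + 1)) e) - MvPowerSeries.X i ∈
      Ideal.span (MvPowerSeries.X '' {l : High n h | l.1.val < i.1.val}) := by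
  classical
  have hp : p.Prime := Fact.out
  set c := redHeight p n h (PowerSeries.coeff (p ^ (i.1.val + 1)) e) - MvPowerSeries.X i with hc
  let ψ : Ser p n h →+* Ser p n h :=
    MvPowerSeries.rescale fun l : High n h => if l.1.val < i.1.val then 1 else 0
  have hsupp : ∀ d : High n h →₀ ℕ, MvPowerSeries.coeff d c ≠ 0 →
      d ≠ 0 ∧ ∀ l ∈ d.support, l.1.val < i.1.val := by
    intro d hd
    have hd0 : d ≠ 0 := by
      rintro rfl
      refine hd ?_
      rw [hc, map_sub, MvPowerSeries.coeff_zero_eq_constantCoeff_apply,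
        MvPowerSeries.coeff_zero_eq_constantCoeff_apply, constantCoeff_redHeight,
        MvPowerSeries.constantCoeff_X, red_coeff hf, if_neg, sub_zero]
      exact fun he => absurd (Nat.pow_right_injective hp.two_le he) (by have := i.1.isLt; omega)
    refine ⟨hd0, fun l hl => ?_⟩
    by_contra hli
    by_cases hs : d = Finsupp.single i 1
    · subst hs
      refine hd ?_
      rw [hc, map_sub, MvPowerSeries.coeff_X, if_pos rfl, coeff_redHeight,
        Finsupp.embDomain_single, Function.Embedding.coe_subtype, hf.linear, sub_self]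
    rw [hc, map_sub, MvPowerSeries.coeff_X, if_neg hs, sub_zero, coeff_redHeight] at hd
    have hg := hf.grading (p ^ (i.1.val + 1)) _ fun hz => hd (by rw [hz, map_zero])
    set a : Fin (n - 1) →₀ ℕ := Finsupp.embDomain (Function.Embedding.subtype _) d with ha
    have hal : a l.1 = d l := Finsupp.embDomain_apply_self _ _ l
    have h2 : ∀ m : ℕ, 1 < p ^ (m + 1) := fun m => Nat.one_lt_pow (Nat.succ_ne_zero _) hp.one_lt
    have hd1 : 1 ≤ d l := Nat.one_le_iff_ne_zero.2 (Finsupp.mem_support_iff.1 hl)
    have hmono : p ^ (i.1.val + 1) ≤ p ^ (l.1.val + 1) :=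
      Nat.pow_le_pow_right hp.pos (by omega)
    have hadd := hg
    rw [← add_sum_erase univ _ (mem_univ l.1), hal] at hadd
    have hle : p ^ (l.1.val + 1) - 1 ≤ d l * (p ^ (l.1.val + 1) - 1) :=
      Nat.le_mul_of_pos_left _ hd1
    have heq : p ^ (l.1.val + 1) = p ^ (i.1.val + 1) := by
      have := h2 l.1.val
      omega
    have hli' : l = i :=
      Subtype.ext (Fin.ext (by have := Nat.pow_right_injective hp.two_le heq; omega))
    subst hli'
    have hdl : d l = 1 := by
      have := h2 l.1.val
      have h3 : d l * (p ^ (l.1.val + 1) - 1) ≤ 1 * (p ^ (l.1.val + 1) - 1) := by omega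
      have := Nat.le_of_mul_le_mul_right h3 (by omega)
      omega
    refine hs (Finsupp.ext fun m => ?_)
    by_cases hm : m = l
    · subst hm; rw [hdl, Finsupp.single_eq_same]
    · rw [Finsupp.single_eq_of_ne hm]
      have hzero : ∑ x ∈ univ.erase l.1, a x * (p ^ (x.val + 1) - 1) = 0 := by
        rw [hdl, one_mul] at hadd
        omega
      have := (sum_eq_zero_iff.1 hzero) m.1
        (mem_erase.2 ⟨fun he => hm (Subtype.ext he), mem_univ _⟩)
      rw [show a m.1 = d m from Finsupp.embDomain_apply_self _ _ m] at this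
      rcases Nat.mul_eq_zero.1 this with h0 | h0
      · exact h0
      · have := h2 m.1.val; omega
  have hψ : ψ c = c := by
    ext d
    rw [MvPowerSeries.coeff_rescale]
    by_cases hd : MvPowerSeries.coeff d c = 0
    · rw [hd, mul_zero]
    · rw [Finsupp.prod, prod_eq_one (fun l hl => by rw [if_pos ((hsupp d hd).2 l hl), one_pow]),
        one_mul]
  have hc0 : MvPowerSeries.constantCoeff c = 0 := by
    rw [← MvPowerSeries.coeff_zero_eq_constantCoeff_apply]
    by_contra h0
    exact (hsupp 0 h0).1 rfl
  rw [← hψ]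
  have hcm : c ∈ Ideal.span (Set.range (MvPowerSeries.X : High n h → Ser p n h)) := by
    simpa [hc0] using Vale.Agent.P202.sub_C_constantCoeff_mem_span_X c
  refine Ideal.mem_comap.1 ((Ideal.span_le.2 ?_ :
    Ideal.span (Set.range MvPowerSeries.X) ≤ Ideal.comap ψ _) hcm)
  rintro _ ⟨l, rfl⟩
  rw [SetLike.mem_coe, Ideal.mem_comap]
  have hX : ψ (MvPowerSeries.X l) =
      if l.1.val < i.1.val then MvPowerSeries.X l else 0 := by
    ext d
    rw [MvPowerSeries.coeff_rescale, MvPowerSeries.coeff_X]
    by_cases hd : d = Finsupp.single l 1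
    · subst hd
      rw [Finsupp.prod_single_index (by simp), if_pos rfl]
      split_ifs <;> simp
    · split_ifs <;> simp [MvPowerSeries.coeff_X, hd]
  rw [hX]
  split_ifs with hl
  · exact Ideal.subset_span ⟨l, hl, rfl⟩
  · exact zero_mem _

lemma coeff_gser_one (hf : PSeriesFacts p n e) (h1 : 1 ≤ h) (hn : h < n) :
    PowerSeries.coeff 1 (gser h e) = MvPowerSeries.X ⟨⟨h - 1, by omega⟩, by simp; omega⟩ := by
  have h2 := coeff_pow_sub_mem hf (i := (⟨⟨h - 1, by omega⟩, by simp; omega⟩ : High n h))
  have he : {l : High n h | l.1.val < h - 1} = ∅ :=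
    Set.eq_empty_of_forall_notMem fun l hl => by
      have := l.2
      change l.1.val < h - 1 at hl
      omega
  simp only [he, Set.image_empty, Ideal.span_empty, Ideal.mem_bot, sub_eq_zero] at h2
  rw [gser, PowerSeries.coeff_mk, mul_one]
  simpa [Nat.sub_add_cancel h1] using h2

lemma residue_gser (hf : PSeriesFacts p n e) (hn : h ≤ n) :
    PowerSeries.map (residue (Ser p n h)) (gser h e) = PowerSeries.X ^ p ^ (n - h) := by
  ext m
  rw [PowerSeries.coeff_map, gser, PowerSeries.coeff_mk, PowerSeries.coeff_X_pow]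
  have hval : MvPowerSeries.constantCoeff (redHeight p n h (PowerSeries.coeff (p ^ h * m) e)) =
      if m = p ^ (n - h) then 1 else 0 := by
    rw [constantCoeff_redHeight, red_coeff hf]
    refine if_congr ?_ rfl rfl
    rw [← Nat.sub_add_cancel hn, pow_add, Nat.sub_add_cancel hn, mul_comm (p ^ (n - h))]
    exact mul_right_inj' (pow_ne_zero _ (Fact.out : p.Prime).ne_zero)
  split_ifs with hm
  · rw [← map_one (residue (Ser p n h))]
    refine (Ideal.Quotient.mk_eq_mk_iff_sub_mem _ _).2 ((mem_maximalIdeal _).2 fun hu => ?_)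
    have h2 := MvPowerSeries.isUnit_iff_constantCoeff.1 hu
    rw [map_sub, map_one, hval, if_pos hm, sub_self] at h2
    exact not_isUnit_zero h2
  · refine (residue_eq_zero_iff _).2 ((mem_maximalIdeal _).2 fun hu => ?_)
    have h2 := MvPowerSeries.isUnit_iff_constantCoeff.1 hu
    rw [hval, if_neg hm] at h2
    exact not_isUnit_zero h2

/-- The Weierstrass factorisation of `g`. -/
theorem exists_weierstrass (hf : PSeriesFacts p n e) (hn : h ≤ n) :
    ∃ (W : Polynomial (Ser p n h)) (ε : PowerSeries (Ser p n h)),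
      IsUnit ε ∧ gser h e = (W : PowerSeries (Ser p n h)) * ε ∧
      W.Monic ∧ W.natDegree = p ^ (n - h) ∧
      ∀ m < p ^ (n - h), W.coeff m ∈ maximalIdeal (Ser p n h) := by
  have := isAdicComplete_ser (p := p) (n := n) h
  have hne : PowerSeries.map (residue (Ser p n h)) (gser h e) ≠ 0 := by
    rw [residue_gser hf hn]
    exact pow_ne_zero _ PowerSeries.X_ne_zero
  refine ⟨_, _, (gser h e).isUnit_weierstrassUnit hne,
    (gser h e).eq_weierstrassDistinguished_mul_weierstrassUnit hne,
    ((gser h e).isDistinguishedAt_weierstrassDistinguished hne).monic, ?_, ?_⟩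
  · rw [((gser h e).isWeierstrassFactorization_weierstrassDistinguished_weierstrassUnit
      hne).natDegree_eq_toNat_order_map, residue_gser hf hn, PowerSeries.order_X_pow]
    rfl
  · intro m hm
    refine ((gser h e).isDistinguishedAt_weierstrassDistinguished hne).mem ?_
    rw [((gser h e).isWeierstrassFactorization_weierstrassDistinguished_weierstrassUnit
      hne).natDegree_eq_toNat_order_map, residue_gser hf hn, PowerSeries.order_X_pow]
    exact hm

end Vale.Agent.P217.Point

end
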