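import Vale.Agent.P217.Point.Growth

/-!
P217, POINT: if monomials in `δ` elements of `R` stay independent over `p ^ e`-th powers, some
Moore determinant in `δ` generators of the maximal ideal upstairs has exact order.
-/

noncomputable section

namespace Vale.Agent.P217.Point

open Finset IsLocalRing

variable {R R₁ : Type*} [CommRing R] [CommRing R₁] [Algebra R R₁]

lemma pow_span_range_le {r₀ : ℕ} (f : Fin r₀ → R) (q : ℕ) :
    Ideal.span (Set.range f) ^ (r₀ * q + 1) ≤ Ideal.span (Set.range fun i => f i ^ q) := by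
  refine (pow_span_le_span_zmon f _).trans (Ideal.span_le.2 ?_)
  rintro _ ⟨α, hα, rfl⟩
  change ∑ i, α i = r₀ * q + 1 at hα
  obtain ⟨i, hi⟩ : ∃ i, q ≤ α i := by
    by_contra hlt
    push Not at hlt
    have := sum_le_card_nsmul univ (fun i => α i) q fun i _ => (hlt i).le
    simp only [card_univ, Fintype.card_fin, smul_eq_mul] at this
    omega
  rw [SetLike.mem_coe, zmon, ← mul_prod_erase univ _ (mem_univ i), ← Nat.sub_add_cancel hi,
    pow_add, mul_comm (f i ^ _) (f i ^ q), mul_assoc]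
  exact Ideal.mul_mem_right _ _ (Ideal.subset_span ⟨i, rfl⟩)

lemma moore_mem_pow {N₀ δ : ℕ} (z : Fin N₀ → R) (P : ℕ) (S : Fin δ → Fin N₀) :
    moore z P S ∈ Ideal.span (Set.range z) ^ ∑ j : Fin δ, P ^ (j : ℕ) := by
  rw [moore, Matrix.det_apply']
  refine Ideal.sum_mem _ fun σ _ => Ideal.mul_mem_left _ _ ?_
  rw [← prod_pow_eq_pow_sum]
  refine Ideal.prod_mem_prod fun j _ => Ideal.pow_mem_pow ?_ _
  exact Ideal.subset_span (Set.mem_range_self _)

/-- A power lying too deep can be replaced by any higher one. -/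
lemma pow_mem_of_le {m : Ideal R} {M : R} {D k k' : ℕ} (hM : M ∈ m ^ D)
    (hk : M ^ k ∈ m ^ (k * D + 1)) (hkk : k ≤ k') : M ^ k' ∈ m ^ (k' * D + 1) := by
  obtain ⟨c, rfl⟩ := Nat.exists_eq_add_of_le hkk
  have := Ideal.mul_mem_mul hk (Ideal.pow_mem_pow hM c)
  rw [← pow_add, ← pow_mul, ← pow_add] at this
  rwa [show k * D + 1 + D * c = (k + c) * D + 1 by ring] at this

section Nakayama

variable [IsDomain R₁] [IsNoetherianRing R₁]

/-- Some generator of a proper nonzero ideal has exact order. -/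
theorem exists_pow_notMem {N₀ : ℕ} (z : Fin N₀ → R₁) (hne : Ideal.span (Set.range z) ≠ ⊤)
    {i₀ : Fin N₀} (hi₀ : z i₀ ≠ 0) :
    ∃ i, ∀ k : ℕ, z i ^ k ∉ Ideal.span (Set.range z) ^ (k + 1) := by
  classical
  by_contra hcon
  push Not at hcon
  choose k hk using hcon
  set m := Ideal.span (Set.range z) with hm
  set K := univ.sup k with hK
  have hz : ∀ i, z i ∈ m := fun i => Ideal.subset_span ⟨i, rfl⟩
  have hK' : ∀ i, z i ^ K ∈ m ^ (K + 1) := fun i => by
    simpa using pow_mem_of_le (D := 1) (by simpa using hz i) (by simpa using hk i)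
      (Finset.le_sup (mem_univ i) : k i ≤ K)
  set D := N₀ * K + 1 with hD
  have hle : m ^ D ≤ m * m ^ D := by
    rw [← pow_succ']
    refine (pow_span_le_span_zmon z D).trans (Ideal.span_le.2 ?_)
    rintro _ ⟨α, hα, rfl⟩
    change ∑ i, α i = D at hα
    obtain ⟨i, hi⟩ : ∃ i, K ≤ α i := by
      by_contra hlt
      push Not at hlt
      have := sum_le_card_nsmul univ (fun i => α i) K fun i _ => (hlt i).le
      simp only [card_univ, Fintype.card_fin, smul_eq_mul] at this
      omega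
    let β : Fin N₀ → ℕ := fun l => α l - if l = i then K else 0
    have hαβ : α = β + Pi.single i K := funext fun l => by
      by_cases hl : l = i
      · subst hl; simp [β]; omega
      · simp [β, hl]
    have hsum : ∑ l, β l + K = D := by
      rw [← hα, hαβ, sum_congr rfl fun l _ => Pi.add_apply β (Pi.single i K : Fin N₀ → ℕ) l,
        sum_add_distrib]
      simp
    have h1 := Ideal.mul_mem_mul (zmon_mem_pow z β) (hK' i)
    rw [← pow_add, show ∑ l, β l + (K + 1) = D + 1 by omega] at h1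
    rw [SetLike.mem_coe, hαβ, zmon_add,
      show zmon z (Pi.single i K) = z i ^ K by simp [zmon, Pi.single_apply, pow_ite]]
    exact h1
  obtain ⟨x, hx1, hx0⟩ := Submodule.exists_sub_one_mem_and_smul_eq_zero_of_fg_of_le_smul m
    (m ^ D) (IsNoetherian.noetherian _) hle
  have h0 := hx0 _ (Ideal.pow_mem_pow (hz i₀) D)
  rw [smul_eq_mul, mul_eq_zero] at h0
  rcases h0 with h0 | h0
  · rw [h0, zero_sub] at hx1
    exact hne ((Ideal.eq_top_iff_one _).2 (neg_mem_iff.1 hx1))
  · exact pow_ne_zero _ hi₀ h0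

end Nakayama

variable [IsLocalRing R] [IsDomain R] (p : ℕ) [Fact p.Prime] [CharP R p] [IsDomain R₁]
  [CharP R₁ p] [Module.Finite R R₁]

/-- The generators `z` of the ideal upstairs are tied to those of the maximal ideal. -/
structure Tied {N₀ r₀ : ℕ} (u : Fin r₀ → R) (z : Fin N₀ → R₁) (d₀ : ℕ) : Prop where
  inj : Function.Injective (algebraMap R R₁)
  gen : maximalIdeal R = Ideal.span (Set.range u)
  down : ∀ a, algebraMap R R₁ (u a) ∈ Ideal.span (Set.range z)
  up : ∀ i, z i ^ d₀ ∈ (maximalIdeal R).map (algebraMap R R₁)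
  residue : ∀ x : R₁, ∃ a : R, x - algebraMap R R₁ a ∈ Ideal.span (Set.range z)

/-- Exact order of some Moore determinant. -/
theorem exists_moore_notMem {N₀ r₀ δ d₀ : ℕ} {u : Fin r₀ → R} {z : Fin N₀ → R₁}
    (hT : Tied u z d₀) {P : ℕ} (hP : 1 < P) (hδ : 1 ≤ δ)
    (hperf : ∀ e (a : R), ∃ c, a - c ^ p ^ e ∈ maximalIdeal R)
    (hfrob : ∀ e, ∃ s : Finset R, ∀ a, ∃ c : R → R, a = ∑ g ∈ s, c g ^ p ^ e * g)
    (u' : Fin δ → R)
    (hind : ∀ e (c : (Fin δ → Fin (p ^ e)) → R),
      ∑ α, c α ^ p ^ e * ∏ l, u' l ^ (α l : ℕ) = 0 → ∀ α, c α = 0) :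
    ∃ S : Fin δ → Fin N₀, StrictMono S ∧ ∀ k : ℕ, moore z P S ^ k ∉
      Ideal.span (Set.range z) ^ (k * (∑ j : Fin δ, P ^ (j : ℕ)) + 1) := by
  classical
  by_contra hcon
  push Not at hcon
  choose k hk using hcon
  set m := Ideal.span (Set.range z) with hm
  set D := ∑ j : Fin δ, P ^ (j : ℕ) with hD
  set a := univ.sup fun S : Fin δ → Fin N₀ => if hS : StrictMono S then k S hS else 0 with ha
  have hp : p.Prime := Fact.out
  have hS : ∀ S : Fin δ → Fin N₀, StrictMono S → moore z P S ^ p ^ a ∈ m ^ (p ^ a * D + 1) := by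
    intro S hS
    refine pow_mem_of_le (moore_mem_pow z P S) (hk S hS) (le_trans ?_ (Nat.lt_pow_self hp.one_lt).le)
    refine le_trans ?_ (Finset.le_sup (f := fun S : Fin δ → Fin N₀ =>
      if hS : StrictMono S then k S hS else 0) (mem_univ S))
    simp [hS]
  set M₀ := p ^ a * P ^ δ with hM₀
  have hM1 : 1 ≤ M₀ := Nat.mul_pos (pow_pos hp.pos a) (pow_pos (Nat.zero_lt_of_lt hP) δ)
  set K := (d₀ + 1) * ((r₀ + 1) * (N₀ + 1)) + 1 with hK
  set e := 2 ^ N₀ * (K ^ (δ - 1) * M₀ ^ N₀) with he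
  set q := p ^ e with hq
  have hq1 : 1 ≤ q := pow_pos hp.pos e
  set N := K * q with hN
  let φ : R →+* R₁ := (algebraMap R R₁).comp (iterateFrobenius R p e)
  have hφ : ∀ b, φ b = algebraMap R R₁ b ^ q := fun b => by
    simp [φ, iterateFrobenius_def, hq]
  have hφinj : Function.Injective φ :=
    hT.inj.comp (iterateFrobenius_inj R p e)
  set C := φ.range with hC
  have : IsLocalRing C := IsLocalRing.of_surjective' φ.rangeRestrict φ.rangeRestrict_surjective
  have hCres : ∀ x : R₁, ∃ c ∈ C, x - c ∈ m := by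
    intro x
    obtain ⟨b, hb⟩ := hT.residue x
    obtain ⟨c, hc⟩ := hperf e b
    refine ⟨φ c, ⟨c, rfl⟩, ?_⟩
    have hle : (maximalIdeal R).map (algebraMap R R₁) ≤ m := by
      rw [hT.gen, Ideal.map_span, Ideal.span_le]
      rintro _ ⟨_, ⟨i, rfl⟩, rfl⟩
      exact hT.down i
    have h2 := hle (Ideal.mem_map_of_mem _ hc)
    rw [map_sub, map_pow, ← hφ] at h2
    simpa using add_mem hb h2
  set U := Submodule.span C (zmon z '' ↑(goodSet N₀ δ M₀ N)) with hU
  set I : Ideal C := (maximalIdeal R).map φ.rangeRestrict with hI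
  have hIj : I ≤ Ideal.jacobson (⊥ : Ideal C) := by
    rw [IsLocalRing.jacobson_eq_maximalIdeal ⊥ bot_ne_top, hI, Ideal.map_le_iff_le_comap]
    intro b hb
    rw [Ideal.mem_comap, mem_maximalIdeal]
    intro hu
    obtain ⟨c, hc⟩ := φ.rangeRestrict_surjective (↑hu.unit⁻¹ : C)
    refine (mem_maximalIdeal b).1 hb (IsUnit.of_mul_eq_one c (hφinj ?_))
    have h1 : φ.rangeRestrict (b * c) = 1 := by rw [map_mul, hc, IsUnit.mul_val_inv]
    simpa using congrArg Subtype.val h1
  have hfin : (⊤ : Submodule C R₁).FG := by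
    obtain ⟨s, hs⟩ := hfrob e
    obtain ⟨w, hw⟩ := ‹Module.Finite R R₁›.fg_top
    refine ⟨(s ×ˢ w).image fun x => algebraMap R R₁ x.1 * x.2, eq_top_iff.2 fun x _ => ?_⟩
    suffices key : ∀ y ∈ Submodule.span R (w : Set R₁), y ∈ Submodule.span C
        ↑((s ×ˢ w).image fun x => algebraMap R R₁ x.1 * x.2) from key x (hw ▸ Submodule.mem_top)
    intro x hx
    induction hx using Submodule.span_induction with
    | mem y hy =>
      obtain ⟨c, hc⟩ := hs 1
      rw [← one_mul y, ← map_one (algebraMap R R₁), hc, map_sum, sum_mul]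
      refine Submodule.sum_mem _ fun g hg => ?_
      rw [map_mul, map_pow, ← hφ, mul_assoc]
      exact Submodule.smul_mem _ (⟨φ (c g), c g, rfl⟩ : C)
        (Submodule.subset_span (mem_image.2 ⟨(g, y), mem_product.2 ⟨hg, hy⟩, rfl⟩))
    | zero => exact zero_mem _
    | add y y' _ _ h h' => exact add_mem h h'
    | smul b y hy h =>
      clear hy
      rw [Algebra.smul_def]
      induction h using Submodule.span_induction with
      | mem v hv =>
        obtain ⟨⟨g, y'⟩, hgy, rfl⟩ := mem_image.1 hv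
        obtain ⟨c, hc⟩ := hs (b * g)
        rw [← mul_assoc, ← map_mul, hc, map_sum, sum_mul]
        refine Submodule.sum_mem _ fun g' hg' => ?_
        rw [map_mul, map_pow, ← hφ, mul_assoc]
        exact Submodule.smul_mem _ (⟨φ (c g'), c g', rfl⟩ : C)
          (Submodule.subset_span
            (mem_image.2 ⟨(g', y'), mem_product.2 ⟨hg', (mem_product.1 hgy).2⟩, rfl⟩))
      | zero => rw [mul_zero]; exact zero_mem _
      | add v v' _ _ h h' => rw [mul_add]; exact add_mem h h'
      | smul c v _ h =>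
        rw [show algebraMap R R₁ b * c • v = c • (algebraMap R R₁ b * v) by
          simp [Subring.smul_def]; ring]
        exact Submodule.smul_mem _ c h
  have hdeep : m ^ N ≤ Ideal.span (Set.range fun i => algebraMap R R₁ (u i) ^ q) := by
    refine (pow_span_le_span_zmon z N).trans (Ideal.span_le.2 ?_)
    rintro _ ⟨α, hα, rfl⟩
    change ∑ i, α i = N at hα
    obtain ⟨i, hi⟩ : ∃ i, d₀ * (r₀ * q + 1) ≤ α i := by
      by_contra hlt
      push Not at hlt
      have h1 := sum_le_card_nsmul univ α _ fun i _ => (hlt i).le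
      rw [hα] at h1
      simp only [card_univ, Fintype.card_fin, smul_eq_mul] at h1
      have h2 : N₀ * (d₀ * (r₀ * q + 1)) < N := by
        calc N₀ * (d₀ * (r₀ * q + 1))
            ≤ (N₀ + 1) * ((d₀ + 1) * (r₀ * q + q)) :=
              Nat.mul_le_mul (Nat.le_succ _) (Nat.mul_le_mul (Nat.le_succ _) (by omega))
          _ < (N₀ + 1) * ((d₀ + 1) * (r₀ * q + q)) + q := Nat.lt_add_of_pos_right hq1
          _ = N := by rw [hN, hK]; ring
      omega
    rw [SetLike.mem_coe, zmon, ← mul_prod_erase univ _ (mem_univ i), ← Nat.sub_add_cancel hi,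
      pow_add, mul_comm (z i ^ _) _, mul_assoc, pow_mul]
    refine Ideal.mul_mem_right _ _ ?_
    have h3 := Ideal.pow_mem_pow (hT.up i) (r₀ * q + 1)
    rw [hT.gen, Ideal.map_span, ← Set.range_comp] at h3
    exact pow_span_range_le _ _ h3
  have hgen : ∀ x : R₁, x ∈ U ⊔ I • (⊤ : Submodule C R₁) := by
    intro x
    obtain ⟨y, hy, hxy⟩ := exists_sub_mem_pow z p hP C hCres a hS N x
    rw [show x = y + (x - y) by ring]
    refine add_mem (Submodule.mem_sup_left hy) (Submodule.mem_sup_right ?_)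
    obtain ⟨c, hc⟩ := Ideal.mem_span_range_iff_exists_fun.1 (hdeep hxy)
    rw [← hc]
    refine Submodule.sum_mem _ fun i _ => ?_
    rw [← hφ, mul_comm]
    exact Submodule.smul_mem_smul (Ideal.mem_map_of_mem φ.rangeRestrict
      (hT.gen ▸ Ideal.subset_span ⟨i, rfl⟩)) Submodule.mem_top
  have htop : (⊤ : Submodule C R₁) ≤ U :=
    Submodule.le_of_le_smul_of_le_jacobson_bot hfin hIj fun x _ => hgen x
  have hlin : LinearIndependent C fun α : Fin δ → Fin q =>
      algebraMap R R₁ (∏ l, u' l ^ (α l : ℕ)) := by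
    rw [Fintype.linearIndependent_iff]
    intro g hg α
    choose c hc using fun α => φ.rangeRestrict_surjective (g α)
    have h0 := hind e c (hT.inj ?_) α
    · rw [← hc α, h0, map_zero]
    · rw [map_sum, map_zero]
      refine Eq.trans (sum_congr rfl fun β _ => ?_) hg
      rw [map_mul, map_pow, ← hφ, Subring.smul_def, ← hc β]
      rfl
  have hcard := linearIndependent_le_span_finset _ hlin ((goodSet N₀ δ M₀ N).image (zmon z))
    (by rw [coe_image]; exact eq_top_iff.2 htop)
  rw [Cardinal.mk_fintype, Nat.cast_le, Fintype.card_fun, Fintype.card_fin, Fintype.card_fin]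
    at hcard
  have h1 := hcard.trans (card_image_le.trans (card_goodSet_le hM1 (Nat.mul_pos (Nat.succ_pos _) hq1)))
  rw [hN, mul_pow, show 2 ^ N₀ * (K ^ (δ - 1) * q ^ (δ - 1) * M₀ ^ N₀) = e * q ^ (δ - 1) by
    rw [he]; ring, ← Nat.sub_add_cancel hδ, pow_succ', Nat.sub_add_cancel hδ] at h1
  have h2 := Nat.le_of_mul_le_mul_right h1 (pow_pos hq1 _)
  exact absurd (Nat.lt_pow_self hp.one_lt : e < q) (not_lt.2 h2)

end Vale.Agent.P217.Point

end
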