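import Mathlib

/-!
P217, POINT: if all Moore determinants in `δ` of the generators `z_i` of an ideal `m` vanish to
higher order after a power, then modulo `m ^ N` few monomials in the `z_i` suffice.
-/

noncomputable section

namespace Vale.Agent.P217.Point

open Finset

variable {R : Type*} [CommRing R] {N₀ δ : ℕ} (z : Fin N₀ → R)

/-- The monomial with exponents `α`. -/
def zmon (α : Fin N₀ → ℕ) : R := ∏ i, z i ^ α i

/-- The Moore determinant of `δ` of the generators. -/
def moore (P : ℕ) (S : Fin δ → Fin N₀) : R :=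
  (Matrix.of fun s j : Fin δ => z (S s) ^ P ^ (j : ℕ)).det

/-- The exponent vector of the term of the Moore determinant attached to `σ`. -/
def expo (P : ℕ) (S : Fin δ → Fin N₀) (σ : Equiv.Perm (Fin δ)) (i : Fin N₀) : ℕ :=
  ∑ j, if S (σ j) = i then P ^ (j : ℕ) else 0

/-- The position weight of an exponent vector. -/
def pweight (α : Fin N₀ → ℕ) : ℕ := ∑ i : Fin N₀, (i : ℕ) * α i

lemma zmon_add (α β : Fin N₀ → ℕ) : zmon z (α + β) = zmon z α * zmon z β := by
  simp [zmon, pow_add, prod_mul_distrib]

lemma zmon_expo (P a : ℕ) (S : Fin δ → Fin N₀) (σ : Equiv.Perm (Fin δ)) :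
    zmon z (fun i => a * expo P S σ i) = (∏ j, z (S (σ j)) ^ P ^ (j : ℕ)) ^ a := by
  simp only [zmon, expo, ← prod_pow, ← pow_mul]
  calc ∏ i, z i ^ (a * ∑ j, if S (σ j) = i then P ^ (j : ℕ) else 0)
      = ∏ i, ∏ j, if S (σ j) = i then z (S (σ j)) ^ (P ^ (j : ℕ) * a) else 1 := by
        refine prod_congr rfl fun i _ => ?_
        rw [mul_sum, ← prod_pow_eq_pow_sum]
        refine prod_congr rfl fun j _ => ?_
        split_ifs with h
        · rw [h, mul_comm]
        · rw [mul_zero, pow_zero]
    _ = _ := by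
        rw [prod_comm]
        simp

lemma sum_expo (P : ℕ) (S : Fin δ → Fin N₀) (σ : Equiv.Perm (Fin δ)) :
    ∑ i, expo P S σ i = ∑ j : Fin δ, P ^ (j : ℕ) := by
  simp only [expo]
  rw [sum_comm]
  simp

lemma pweight_expo (P : ℕ) (S : Fin δ → Fin N₀) (σ : Equiv.Perm (Fin δ)) :
    pweight (expo P S σ) = ∑ j, (S (σ j) : ℕ) * P ^ (j : ℕ) := by
  simp only [pweight, expo, mul_sum]
  rw [sum_comm]
  refine sum_congr rfl fun j _ => ?_
  simp

lemma pweight_expo_rev_lt {P : ℕ} (hP : 1 < P) {S : Fin δ → Fin N₀} (hS : StrictMono S)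
    {σ : Equiv.Perm (Fin δ)} (hσ : σ ≠ Fin.revPerm) :
    pweight (expo P S Fin.revPerm) < pweight (expo P S σ) := by
  rw [pweight_expo, pweight_expo]
  let f : Fin δ → ℕ := fun j => (S (Fin.rev j) : ℕ)
  let g : Fin δ → ℕ := fun j => P ^ (j : ℕ)
  have hg : StrictMono g := fun i j hij => Nat.pow_lt_pow_right hP hij
  have hf : StrictAnti f := fun i j hij => hS (Fin.rev_lt_rev.2 hij)
  have hfg : Antivary f g := fun i j hij => hf.antitone (hg.lt_iff_lt.1 hij).le
  let τ : Equiv.Perm (Fin δ) := σ.trans Fin.revPerm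
  have key : ∀ j, f (τ j) = (S (σ j) : ℕ) := fun j => by simp [f, τ]
  have hτ : ¬ Antivary (f ∘ τ) g := fun h => hσ (by
    have hanti : StrictAnti fun j => S (σ j) := fun i j hij => by
      have h1 : f (τ j) ≤ f (τ i) := h (hg hij)
      rw [key, key] at h1
      exact lt_of_le_of_ne h1 fun e => hij.ne (σ.injective (hS.injective e)).symm
    have hmono : StrictMono fun j => Fin.rev (σ j) := fun i j hij =>
      Fin.rev_lt_rev.2 (hS.lt_iff_lt.1 (hanti hij))
    have hid := (hmono.range_inj strictMono_id).1 (by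
      simp only [Set.range_id]
      exact Function.Surjective.range_eq (Fin.rev_surjective.comp σ.surjective))
    refine Equiv.ext fun j => ?_
    have := congrFun hid j
    rw [id_eq] at this
    rw [Fin.revPerm_apply, ← Fin.rev_rev (σ j), this])
  have h2 := (hfg.sum_smul_lt_sum_comp_perm_smul_iff (σ := τ)).2 hτ
  simpa [key, smul_eq_mul, f, g] using h2

/-- The exponent vectors below `N` with fewer than `δ` entries at least `M₀`. -/
def goodSet (N₀ δ M₀ N : ℕ) : Finset (Fin N₀ → ℕ) :=
  (Fintype.piFinset fun _ => range N).filter fun α => #{i | M₀ ≤ α i} < δ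

lemma card_goodSet_le {δ M₀ N : ℕ} (hM : 1 ≤ M₀) (hN : 1 ≤ N) :
    (goodSet N₀ δ M₀ N).card ≤ 2 ^ N₀ * (N ^ (δ - 1) * M₀ ^ N₀) := by
  classical
  let box : Finset (Fin N₀) → Finset (Fin N₀ → ℕ) := fun T =>
    Fintype.piFinset fun i => if i ∈ T then range N else range M₀
  have hsub : goodSet N₀ δ M₀ N ⊆
      ((univ : Finset (Fin N₀)).powerset.filter fun T => T.card ≤ δ - 1).biUnion box := by
    intro α hα
    rw [goodSet, mem_filter, Fintype.mem_piFinset] at hα
    refine mem_biUnion.2 ⟨univ.filter fun i => M₀ ≤ α i, mem_filter.2 ⟨by simp, by omega⟩, ?_⟩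
    refine Fintype.mem_piFinset.2 fun i => ?_
    split_ifs with hi
    · exact hα.1 i
    · exact mem_range.2 (by simpa using hi)
  refine (card_le_card hsub).trans (card_biUnion_le.trans ?_)
  refine (sum_le_card_nsmul _ _ _ fun T hT => ?_).trans
    (Nat.mul_le_mul_right _ ((card_filter_le _ _).trans (by simp)))
  have hT' : T.card ≤ δ - 1 := (mem_filter.1 hT).2
  rw [Fintype.card_piFinset]
  simp only [apply_ite Finset.card, card_range]
  rw [prod_ite, prod_const, prod_const]
  refine Nat.mul_le_mul (Nat.pow_le_pow_right hN ?_) (Nat.pow_le_pow_right hM ?_)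
  · simpa using hT'
  · simpa using card_filter_le (univ : Finset (Fin N₀)) _

lemma pow_span_le_span_zmon : ∀ d : ℕ, Ideal.span (Set.range z) ^ d ≤
    Ideal.span (zmon z '' {α | ∑ i, α i = d}) := by
  intro d
  induction d with
  | zero =>
    intro x _
    have : (1 : R) ∈ Ideal.span (zmon z '' {α | ∑ i, α i = 0}) :=
      Ideal.subset_span ⟨0, by simp, by simp [zmon]⟩
    rw [(Ideal.eq_top_iff_one _).2 this]
    trivial
  | succ d ih =>
    rw [pow_succ]
    refine (Ideal.mul_mono ih le_rfl).trans ?_
    rw [Ideal.span_mul_span', Ideal.span_le]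
    rintro _ ⟨_, ⟨α, hα, rfl⟩, _, ⟨i, rfl⟩, rfl⟩
    refine Ideal.subset_span ⟨α + Pi.single i 1, ?_, ?_⟩
    · change ∑ l, α l = d at hα
      change ∑ l, (α + Pi.single i 1 : Fin N₀ → ℕ) l = d + 1
      simp [sum_add_distrib, hα]
    · rw [zmon_add]
      simp [zmon, Pi.single_apply, pow_ite]

lemma zmon_mem_pow (α : Fin N₀ → ℕ) :
    zmon z α ∈ Ideal.span (Set.range z) ^ ∑ i, α i := by
  rw [← prod_pow_eq_pow_sum]
  refine Ideal.prod_mem_prod fun i _ => Ideal.pow_mem_pow (Ideal.subset_span ?_) _
  exact Set.mem_range_self i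

variable (p : ℕ) [ExpChar R p]

/-- Modulo `m ^ N` the good monomials span. -/
theorem exists_sub_mem_pow {P : ℕ} (hP : 1 < P) (C : Subring R)
    (hC : ∀ r, ∃ c ∈ C, r - c ∈ Ideal.span (Set.range z)) (a : ℕ)
    (hS : ∀ S : Fin δ → Fin N₀, StrictMono S → moore z P S ^ p ^ a ∈
      Ideal.span (Set.range z) ^ (p ^ a * (∑ j : Fin δ, P ^ (j : ℕ)) + 1))
    (N : ℕ) (r : R) :
    ∃ u ∈ Submodule.span C (zmon z '' ↑(goodSet N₀ δ (p ^ a * P ^ δ) N)),
      r - u ∈ Ideal.span (Set.range z) ^ N := by
  classical
  set m := Ideal.span (Set.range z) with hm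
  set U := Submodule.span C (zmon z '' ↑(goodSet N₀ δ (p ^ a * P ^ δ) N)) with hU
  set W : Submodule C R := U ⊔ (m ^ N).restrictScalars C with hW
  suffices key : ∀ i d : ℕ, d + i = N → (m ^ d).restrictScalars C ≤ W by
    have h := key N 0 (zero_add N) (show r ∈ m ^ 0 by simp)
    obtain ⟨u, hu, v, hv, huv⟩ := Submodule.mem_sup.1 h
    refine ⟨u, hu, ?_⟩
    rw [← huv, add_sub_cancel_left]
    exact hv
  intro i
  induction i with
  | zero =>
    intro d hd
    obtain rfl : d = N := by omega
    exact le_sup_right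
  | succ i ih =>
    intro d hd
    have hnext : (m ^ (d + 1)).restrictScalars C ≤ W := ih (d + 1) (by omega)
    have hmon : ∀ w : ℕ, ∀ α : Fin N₀ → ℕ, ∑ i, α i = d → N₀ * d ≤ pweight α + w →
        zmon z α ∈ W := by
      intro w
      induction w using Nat.strong_induction_on with
      | _ w ihw =>
        intro α hα hw
        by_cases hg : α ∈ goodSet N₀ δ (p ^ a * P ^ δ) N
        · exact Submodule.mem_sup_left (Submodule.subset_span ⟨α, hg, rfl⟩)
        have hlt : ∀ l, α l < N := fun l => by
          have := single_le_sum (f := α) (fun _ _ => Nat.zero_le _) (mem_univ l)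
          omega
        have hcard : δ ≤ #{i | p ^ a * P ^ δ ≤ α i} := by
          simpa [goodSet, Fintype.mem_piFinset, hlt] using hg
        obtain ⟨T, hT, hTc⟩ := exists_subset_card_eq hcard
        let S : Fin δ → Fin N₀ := T.orderEmbOfFin hTc
        have hSm : StrictMono S := (T.orderEmbOfFin hTc).strictMono
        have hbig : ∀ s, p ^ a * P ^ δ ≤ α (S s) := fun s =>
          (mem_filter.1 (hT (T.orderEmbOfFin_mem hTc s))).2
        let e0 : Fin N₀ → ℕ := fun l => p ^ a * expo P S Fin.revPerm l
        have he0 : ∀ l, e0 l ≤ α l := fun l => by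
          by_cases hl : ∃ s, S s = l
          · obtain ⟨s, rfl⟩ := hl
            refine le_trans (Nat.mul_le_mul_left _ ?_) (hbig s)
            rw [expo, sum_eq_single (Fin.rev s)]
            · simp only [Fin.revPerm_apply, Fin.rev_rev, if_true]
              exact Nat.pow_le_pow_right hP.le (Fin.isLt _).le
            · intro j _ hj
              rw [if_neg fun h => hj (by
                simpa [Fin.rev_eq_iff] using hSm.injective h)]
            · simp
          · have : expo P S Fin.revPerm l = 0 := sum_eq_zero fun j _ => if_neg fun h => hl ⟨_, h⟩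
            simp [e0, this]
        let β : Fin N₀ → ℕ := fun l => α l - e0 l
        have hαβ : α = β + e0 := funext fun l => (Nat.sub_add_cancel (he0 l)).symm
        let γ : Equiv.Perm (Fin δ) → Fin N₀ → ℕ := fun σ =>
          β + fun l => p ^ a * expo P S σ l
        have hγrev : γ Fin.revPerm = α := hαβ.symm
        have hγd : ∀ σ, ∑ l, γ σ l = d := fun σ => by
          have h1 : ∀ τ, ∑ l, γ τ l = ∑ l, β l + p ^ a * ∑ j : Fin δ, P ^ (j : ℕ) := fun τ => by
            simp only [γ, Pi.add_apply, sum_add_distrib, ← mul_sum, sum_expo]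
          rw [h1, ← h1 Fin.revPerm, hγrev, hα]
        let ε : Equiv.Perm (Fin δ) → C := fun σ =>
          ((Equiv.Perm.sign σ : ℤ) : C) ^ p ^ a
        have hsum : ∑ σ, ε σ • zmon z (γ σ) = zmon z β * moore z P S ^ p ^ a := by
          rw [moore, Matrix.det_apply', sum_pow_char_pow, mul_sum]
          refine sum_congr rfl fun σ _ => ?_
          rw [Subring.smul_def, smul_eq_mul, zmon_add, zmon_expo, mul_pow]
          simp only [Matrix.of_apply, ε]
          push_cast
          ring
        have hin : zmon z β * moore z P S ^ p ^ a ∈ W := by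
          refine hnext (?_ : zmon z β * moore z P S ^ p ^ a ∈ m ^ (d + 1))
          have h2 := Ideal.mul_mem_mul (zmon_mem_pow z β) (hS S hSm)
          have h3 : ∑ l, β l + (p ^ a * (∑ j : Fin δ, P ^ (j : ℕ)) + 1) = d + 1 := by
            rw [← hγd Fin.revPerm]
            simp only [γ, Pi.add_apply, sum_add_distrib, ← mul_sum, sum_expo]
            omega
          rwa [← pow_add, h3] at h2
        rw [← hsum, ← add_sum_erase _ _ (mem_univ Fin.revPerm), hγrev] at hin
        have hrest : ∑ σ ∈ univ.erase Fin.revPerm, ε σ • zmon z (γ σ) ∈ W := by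
          refine Submodule.sum_mem _ fun σ hσ => Submodule.smul_mem _ _ ?_
          have hlt' : pweight α < pweight (γ σ) := by
            rw [← hγrev]
            have h4 := pweight_expo_rev_lt hP hSm (ne_of_mem_erase hσ)
            have h5 : ∀ τ, pweight (γ τ) = pweight β + p ^ a * pweight (expo P S τ) := fun τ => by
              simp only [pweight, γ, Pi.add_apply, mul_add, sum_add_distrib, mul_sum]
              congr 1
              exact sum_congr rfl fun l _ => by ring
            rw [h5, h5]
            have hp0 : 0 < p ^ a := pow_pos (expChar_pos R p) a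
            exact Nat.add_lt_add_left (Nat.mul_lt_mul_of_pos_left h4 hp0) _
          have hle : pweight (γ σ) ≤ N₀ * d := by
            rw [← hγd σ, mul_sum]
            exact sum_le_sum fun l _ => Nat.mul_le_mul_right _ l.isLt.le
          exact ihw (N₀ * d - pweight (γ σ)) (by omega) _ (hγd σ) (by omega)
        have hlead : ε Fin.revPerm • zmon z α ∈ W := by
          simpa using sub_mem hin hrest
        have hεε : ε Fin.revPerm * ε Fin.revPerm = 1 := by
          simp only [ε, ← mul_pow, ← Int.cast_mul, ← Units.val_mul, Int.units_mul_self,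
            Units.val_one, Int.cast_one, one_pow]
        have := Submodule.smul_mem W (ε Fin.revPerm) hlead
        rwa [smul_smul, hεε, one_smul] at this
    intro x hx
    have hx' : x ∈ Ideal.span (zmon z '' {α | ∑ i, α i = d}) := pow_span_le_span_zmon z d hx
    clear hx
    induction hx' using Submodule.span_induction with
    | mem y hy =>
      obtain ⟨α, hα, rfl⟩ := hy
      exact hmon _ α hα (Nat.le_add_left _ _)
    | zero => exact zero_mem _
    | add y y' _ _ h h' => exact add_mem h h'
    | smul c y hy h =>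
      obtain ⟨c', hc', hcm⟩ := hC c
      have hy' : y ∈ m ^ d := by
        refine Ideal.span_le.2 ?_ hy
        rintro _ ⟨α, hα, rfl⟩
        have := zmon_mem_pow z α
        rwa [show ∑ i, α i = d from hα] at this
      have h1 : (c - c') * y ∈ W := hnext (by
        show (c - c') * y ∈ m ^ (d + 1)
        rw [pow_succ']
        exact Ideal.mul_mem_mul hcm hy')
      have h2 : c' * y ∈ W := Submodule.smul_mem W ⟨c', hc'⟩ h
      rw [smul_eq_mul, show c * y = (c - c') * y + c' * y by ring]
      exact add_mem h1 h2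

end Vale.Agent.P217.Point

end
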