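import Vale.Agent.P217.SpecField
import Vale.Agent.P217.Point.Growth

/-!
P217, POINT: a valued point where an element of exact order `D + 1` at the ideal of the `z_i` has
exactly the expected norm, from a chart of the blow-up.
-/

noncomputable section

namespace Vale.Agent.P217.Point

open Finset

variable {R₁ : Type} [CommRing R₁] [IsDomain R₁] {N₀ : ℕ} (z : Fin N₀ → R₁) (i₀ : Fin N₀)

/-- The affine chart `R₁[z_i / z_{i₀}]` of the blow-up. -/
abbrev chart : Subalgebra R₁ (FractionRing R₁) :=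
  Algebra.adjoin R₁ (Set.range fun i =>
    algebraMap R₁ (FractionRing R₁) (z i) / algebraMap R₁ (FractionRing R₁) (z i₀))

variable {z i₀}

lemma div_mem_chart {E : ℕ} {c : R₁} (hc : c ∈ Ideal.span (Set.range z) ^ E) :
    algebraMap R₁ (FractionRing R₁) c / algebraMap R₁ (FractionRing R₁) (z i₀) ^ E ∈
      chart z i₀ := by
  have hc' := pow_span_le_span_zmon z E hc
  clear hc
  induction hc' using Submodule.span_induction with
  | mem y hy =>
    obtain ⟨α, hα, rfl⟩ := hy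
    change ∑ i, α i = E at hα
    rw [← hα, ← prod_pow_eq_pow_sum, zmon, map_prod, ← prod_div_distrib]
    refine Subalgebra.prod_mem _ fun i _ => ?_
    rw [map_pow, ← div_pow]
    exact Subalgebra.pow_mem _ (Algebra.subset_adjoin (Set.mem_range_self i)) _
  | zero => simp
  | add a b _ _ h h' =>
    rw [map_add, add_div]
    exact add_mem h h'
  | smul r a _ h =>
    rw [smul_eq_mul, map_mul, mul_div_assoc, ← Algebra.smul_def]
    exact Subalgebra.smul_mem _ h r

lemma exists_mul_pow (hz : z i₀ ≠ 0) {b : FractionRing R₁} (hb : b ∈ chart z i₀) :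
    ∃ E : ℕ, ∃ c ∈ Ideal.span (Set.range z) ^ E,
      b * algebraMap R₁ (FractionRing R₁) (z i₀) ^ E = algebraMap R₁ _ c := by
  have hZ : algebraMap R₁ (FractionRing R₁) (z i₀) ≠ 0 :=
    fun h0 => hz (IsFractionRing.injective R₁ _ (h0.trans (map_zero _).symm))
  have hz0 : ∀ E, z i₀ ^ E ∈ Ideal.span (Set.range z) ^ E := fun E =>
    Ideal.pow_mem_pow (Ideal.subset_span (Set.mem_range_self i₀)) E
  induction hb using Algebra.adjoin_induction with
  | mem x hx =>
    obtain ⟨i, rfl⟩ := hx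
    refine ⟨1, z i, ?_, ?_⟩
    · rw [pow_one]
      exact Ideal.subset_span (Set.mem_range_self i)
    · rw [pow_one, div_mul_cancel₀ _ hZ]
  | algebraMap r => exact ⟨0, r, by simp, by simp⟩
  | add x y _ _ hx hy =>
    obtain ⟨E, c, hc, hce⟩ := hx
    obtain ⟨E', c', hc', hce'⟩ := hy
    refine ⟨E + E', c * z i₀ ^ E' + c' * z i₀ ^ E, add_mem ?_ ?_, ?_⟩
    · rw [pow_add]
      exact Ideal.mul_mem_mul hc (hz0 _)
    · rw [add_comm E, pow_add]
      exact Ideal.mul_mem_mul hc' (hz0 _)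
    · rw [map_add, map_mul, map_mul, ← hce, ← hce', map_pow, map_pow]
      ring
  | mul x y _ _ hx hy =>
    obtain ⟨E, c, hc, hce⟩ := hx
    obtain ⟨E', c', hc', hce'⟩ := hy
    refine ⟨E + E', c * c', ?_, ?_⟩
    · rw [pow_add]
      exact Ideal.mul_mem_mul hc hc'
    · rw [map_mul, ← hce, ← hce']
      ring

variable [IsNoetherianRing R₁]

/-- The valued point. -/
theorem exists_chart_point (hR : RankOneStatement) {M M' : R₁} {D : ℕ} (hM : M = z i₀ * M')
    (hM' : M' ∈ Ideal.span (Set.range z) ^ D)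
    (hdeep : ∀ k : ℕ, M ^ k ∉ Ideal.span (Set.range z) ^ (k * (D + 1) + 1)) :
    ∃ (K : Type) (_ : NormedField K) (_ : CompleteSpace K) (x : R₁ →+* K),
      IsUltrametricDist K ∧ IsAlgClosed K ∧ Function.Injective x ∧ (∀ b, ‖x b‖ ≤ 1) ∧
        ‖x (z i₀)‖ < 1 ∧ (∀ i, ‖x (z i)‖ ≤ ‖x (z i₀)‖) ∧
        ‖x M‖ = ‖x (z i₀)‖ ^ (D + 1) := by
  classical
  set m := Ideal.span (Set.range z) with hm
  have hz : z i₀ ≠ 0 := fun h0 => hdeep 1 (by rw [pow_one, hM, h0, zero_mul]; exact zero_mem _)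
  set ι := algebraMap R₁ (FractionRing R₁) with hι
  have hZ : ι (z i₀) ≠ 0 := fun h0 => hz (IsFractionRing.injective R₁ _ (h0.trans (map_zero ι).symm))
  have : IsNoetherianRing (chart z i₀) :=
    isNoetherianRing_of_fg (Subalgebra.fg_def.2 ⟨_, Set.finite_range _, rfl⟩)
  let t : chart z i₀ := algebraMap R₁ _ (z i₀)
  let y : chart z i₀ := ⟨ι M' / ι (z i₀) ^ D, div_mem_chart hM'⟩
  have ht : t ≠ 0 := fun h0 => hZ (congrArg Subtype.val h0)
  have hy : y ∉ (Ideal.span {t}).radical := by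
    rintro ⟨k, hk⟩
    obtain ⟨b, hb⟩ := Ideal.mem_span_singleton.1 hk
    obtain ⟨E, c, hc, hce⟩ := exists_mul_pow hz b.2
    have h1 : (ι M' / ι (z i₀) ^ D) ^ k = ι (z i₀) * (b : FractionRing R₁) := by
      simpa [y, t] using congrArg Subtype.val hb
    have key : M ^ k * z i₀ ^ E = z i₀ ^ (k * (D + 1) + 1) * c := by
      apply IsFractionRing.injective R₁ (FractionRing R₁)
      change ι (M ^ k * z i₀ ^ E) = ι (z i₀ ^ (k * (D + 1) + 1) * c)
      rw [div_pow, div_eq_iff (pow_ne_zero _ (pow_ne_zero _ hZ))] at h1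
      simp only [map_mul, map_pow]
      rw [← hce, hM, map_mul, mul_pow, h1]
      ring
    refine hdeep (k + E) ?_
    have h2 : M ^ (k + E) = z i₀ ^ (k * (D + 1) + 1) * c * M' ^ E := by
      rw [← key, pow_add, hM, mul_pow, mul_pow]
      ring
    rw [h2]
    have h3 := Ideal.mul_mem_mul (Ideal.mul_mem_mul (Ideal.pow_mem_pow
      (Ideal.subset_span (Set.mem_range_self i₀) : z i₀ ∈ m) (k * (D + 1) + 1)) hc) (Ideal.pow_mem_pow hM' E)
    rw [← pow_mul, ← pow_add, ← pow_add] at h3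
    rwa [show k * (D + 1) + 1 + E + D * E = (k + E) * (D + 1) + 1 by ring] at h3
  rw [Ideal.radical_eq_sInf, Ideal.mem_sInf] at hy
  push Not at hy
  obtain ⟨J, ⟨hJ, hJp⟩, hyJ⟩ := hy
  obtain ⟨a, ha, haJ⟩ := Ideal.exists_minimalPrimes_le hJ
  obtain ⟨K, i1, i2, x, hult, hac, hinj, hle, hlt⟩ := hR (chart z i₀) t a ht ha
  have hta : t ∈ a := ha.1.2 (Ideal.mem_span_singleton_self t)
  have hy1 : ‖x y‖ = 1 :=
    le_antisymm (hle y) (not_lt.1 fun hy' => hyJ (haJ ((hlt y).1 hy')))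
  refine ⟨K, i1, i2, x.comp (algebraMap R₁ (chart z i₀)), hult, hac,
    hinj.comp fun r s hrs => IsFractionRing.injective R₁ _ (congrArg Subtype.val hrs),
    fun b => hle _, (hlt t).2 hta, fun i => ?_, ?_⟩
  · have hdiv : ι (z i) / ι (z i₀) ∈ chart z i₀ := Algebra.subset_adjoin (Set.mem_range_self i)
    have : algebraMap R₁ (chart z i₀) (z i) = t * ⟨_, hdiv⟩ :=
      Subtype.ext (show ι (z i) = ι (z i₀) * (ι (z i) / ι (z i₀)) by
        rw [mul_div_cancel₀ _ hZ])
    rw [RingHom.comp_apply, this, map_mul, norm_mul]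
    exact mul_le_of_le_one_right (norm_nonneg _) (hle _)
  · have : algebraMap R₁ (chart z i₀) M = t ^ (D + 1) * y :=
      Subtype.ext (show ι M = ι (z i₀) ^ (D + 1) * (ι M' / ι (z i₀) ^ D) by
        rw [hM, map_mul, pow_succ', mul_assoc, mul_div_cancel₀ _ (pow_ne_zero _ hZ)])
    rw [RingHom.comp_apply, this, map_mul, map_pow, norm_mul, norm_pow, hy1, mul_one]
    rfl

end Vale.Agent.P217.Point

end
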