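import Mathlib

/-!
P217, POINT: power series over a perfect ring are combinations of the monomials with exponents below
`p ^ e` with `p ^ e`-th powers as coefficients, and a criterion for independence of these monomials.
-/

noncomputable section

namespace Vale.Agent.P217.Point

open Finset MvPowerSeries

section Decomposition

variable {σ k : Type*} [Fintype σ] [DecidableEq σ] [CommRing k] (p : ℕ) [ExpChar k p] [PerfectRing k p] (e : ℕ)

/-- A digit vector as an exponent. -/
def digitExp {q : ℕ} (α : σ → Fin q) : σ →₀ ℕ := Finsupp.equivFunOnFinite.symm fun i => (α i : ℕ)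

/-- The component of `f` along the monomial `α`. -/
def component (f : MvPowerSeries σ k) (α : σ → Fin (p ^ e)) : MvPowerSeries σ k := fun γ =>
  (iterateFrobeniusEquiv k p e).symm (coeff (p ^ e • γ + digitExp α) f)

omit [DecidableEq σ] in
lemma coeff_component (f : MvPowerSeries σ k) (α : σ → Fin (p ^ e)) (γ : σ →₀ ℕ) :
    coeff γ (component p e f α) =
      (iterateFrobeniusEquiv k p e).symm (coeff (p ^ e • γ + digitExp α) f) :=
  rfl

omit [PerfectRing k p] [Fintype σ] [DecidableEq σ] in
lemma coeff_pow_char_pow (c : MvPowerSeries σ k) (γ : σ →₀ ℕ) :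
    coeff (p ^ e • γ) (c ^ p ^ e) = coeff γ c ^ p ^ e := by
  rw [← map_iterateFrobenius_expand p (expChar_ne_zero k p), coeff_map, coeff_expand_smul,
    iterateFrobenius_def]

omit [PerfectRing k p] [Fintype σ] [DecidableEq σ] in
lemma coeff_pow_char_pow_of_not_dvd (c : MvPowerSeries σ k) {d : σ →₀ ℕ} {i : σ}
    (h : ¬ p ^ e ∣ d i) : coeff d (c ^ p ^ e) = 0 := by
  rw [← map_iterateFrobenius_expand p (expChar_ne_zero k p), coeff_map,
    coeff_expand_of_not_dvd _ _ _ h, map_zero]

theorem sum_component_pow_mul (f : MvPowerSeries σ k) :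
    ∑ α : σ → Fin (p ^ e), component p e f α ^ p ^ e * monomial (digitExp α) 1 = f := by
  classical
  have hq : 0 < p ^ e := pow_pos (expChar_pos k p) e
  ext d
  rw [map_sum]
  let α₀ : σ → Fin (p ^ e) := fun i => ⟨d i % p ^ e, Nat.mod_lt _ hq⟩
  let γ₀ : σ →₀ ℕ := Finsupp.equivFunOnFinite.symm fun i => d i / p ^ e
  have hd : p ^ e • γ₀ + digitExp α₀ = d := by
    ext i
    simpa [γ₀, α₀, digitExp] using Nat.div_add_mod (d i) (p ^ e)
  rw [sum_eq_single α₀]
  · have h : d - digitExp α₀ = p ^ e • γ₀ := by rw [← hd, add_tsub_cancel_right]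
    rw [coeff_mul_monomial, if_pos (hd ▸ le_add_self), mul_one, h, coeff_pow_char_pow,
      coeff_component, hd, ← iterateFrobenius_def,
      ← coe_iterateFrobeniusEquiv, RingEquiv.apply_symm_apply]
  · intro α _ hα
    rw [coeff_mul_monomial]
    split_ifs with hle
    · obtain ⟨i, hi⟩ := Function.ne_iff.1 hα
      rw [coeff_pow_char_pow_of_not_dvd p e _ (i := i), zero_mul]
      intro hdvd
      refine hi (Fin.ext ?_)
      have hli : (α i : ℕ) ≤ d i := hle i
      obtain ⟨c, hc⟩ := hdvd
      have hdi : d i = (α i : ℕ) + p ^ e * c := by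
        simp only [Finsupp.coe_tsub, Pi.sub_apply, digitExp, Finsupp.coe_equivFunOnFinite_symm] at hc
        omega
      change (α i : ℕ) = d i % p ^ e
      rw [hdi, Nat.add_mul_mod_self_left, Nat.mod_eq_of_lt (α i).isLt]
    · rfl
  · simp

end Decomposition

section Independence

variable {Q R L : Type*} [CommRing Q] [CommRing R] [IsDomain R] [CommRing L] [IsDomain L]
  (p : ℕ) [Fact p.Prime] [CharP R p] [CharP L p] (π : Q →+* R) (ι : R →+* L) {τ : Type*}
  [Fintype τ] (u : τ → Q) (D : τ → Q →+ L)

/-- The hypotheses on `D`: derivations into `L` killing `ker π`, dual to `u`. -/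
structure DualDerivations [DecidableEq τ] : Prop where
  inj : Function.Injective ι
  leibniz : ∀ k a b, D k (a * b) = ι (π a) * D k b + ι (π b) * D k a
  kills : ∀ k a, π a = 0 → D k a = 0
  dual : ∀ k l, D k (u l) = if k = l then 1 else 0

variable {π ι u D}

omit [IsDomain R] [IsDomain L] [Fintype τ] in
lemma DualDerivations.map_one [DecidableEq τ] (h : DualDerivations π ι u D) (k : τ) :
    D k 1 = 0 := by
  simpa using h.leibniz k 1 1

omit [IsDomain R] [IsDomain L] [Fintype τ] in
lemma DualDerivations.map_pow [DecidableEq τ] (h : DualDerivations π ι u D) (k : τ) (a : Q) :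
    ∀ m : ℕ, D k (a ^ (m + 1)) = (m + 1 : ℕ) * ι (π a) ^ m * D k a
  | 0 => by simp
  | m + 1 => by
    rw [pow_succ, h.leibniz, DualDerivations.map_pow h k a m, _root_.map_pow, _root_.map_pow]
    push_cast
    ring

omit [IsDomain R] [IsDomain L] [Fintype τ] [CharP R p] in
lemma DualDerivations.map_pow_char [DecidableEq τ] (h : DualDerivations π ι u D) (k : τ) (a : Q) :
    D k (a ^ p) = 0 := by
  obtain ⟨m, hm⟩ := Nat.exists_eq_succ_of_ne_zero (Fact.out : p.Prime).ne_zero
  rw [show a ^ p = a ^ (m + 1) from by rw [hm], h.map_pow k a m]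
  have : ((m + 1 : ℕ) : L) = 0 := by rw [← Nat.succ_eq_add_one, ← hm]; exact CharP.cast_eq_zero L p
  rw [this, zero_mul, zero_mul]

omit [IsDomain R] [IsDomain L] in
lemma DualDerivations.map_prod [DecidableEq τ] (h : DualDerivations π ι u D) (k : τ) (α : τ → ℕ) :
    D k (∏ l, u l ^ α l) = (α k : L) * ι (π (∏ l, u l ^ (α l - if l = k then 1 else 0))) := by
  suffices key : ∀ s : Finset τ, D k (∏ l ∈ s, u l ^ α l) =
      if k ∈ s then (α k : L) * ι (π (∏ l ∈ s, u l ^ (α l - if l = k then 1 else 0))) else 0 by
    simpa using key univ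
  intro s
  induction s using Finset.induction_on with
  | empty => simpa using h.map_one k
  | insert a s ha ih =>
    rw [prod_insert ha, h.leibniz, ih]
    rcases Nat.eq_zero_or_pos (α a) with h0 | h0
    · rw [h0, pow_zero, h.map_one, mul_zero, add_zero, _root_.map_one, _root_.map_one, one_mul]
      by_cases hak : a = k
      · subst hak; simp [ha, h0]
      · simp [prod_insert ha, h0, Ne.symm hak]
    obtain ⟨m, hm⟩ := Nat.exists_eq_succ_of_ne_zero h0.ne'
    rw [hm, h.map_pow, h.dual]
    by_cases hak : a = k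
    · subst hak
      have hprod : ∏ l ∈ s, u l ^ (α l - if l = a then 1 else 0) = ∏ l ∈ s, u l ^ α l :=
        prod_congr rfl fun l hl => by rw [if_neg (fun e' : l = a => ha (e' ▸ hl)), Nat.sub_zero]
      simp only [ha, if_false, mul_zero, zero_add, if_true, mul_one, mem_insert_self]
      rw [prod_insert ha, hprod]
      simp [hm, _root_.map_mul, _root_.map_pow]
      ring
    · rw [if_neg (Ne.symm hak), mul_zero, mul_zero, add_zero]
      simp only [mem_insert, Ne.symm hak, false_or]
      split_ifs
      · rw [prod_insert ha, if_neg hak, Nat.sub_zero, hm]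
        simp [_root_.map_mul, _root_.map_pow]
        ring
      · rw [mul_zero]

omit [IsDomain L] in
/-- One step: the monomials with exponents below `p` are independent over `p`-th powers. -/
theorem DualDerivations.indep_one [DecidableEq τ] (h : DualDerivations π ι u D)
    (c : (τ → Fin p) → Q) (hc : π (∑ α, c α ^ p * ∏ l, u l ^ (α l : ℕ)) = 0) (α : τ → Fin p) :
    π (c α) = 0 := by
  classical
  have hp : p.Prime := Fact.out
  suffices key : ∀ N : ℕ, ∀ c : (τ → Fin p) → Q,
      (∀ α, π (c α) ≠ 0 → ∑ l, (α l : ℕ) < N) →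
      π (∑ α, c α ^ p * ∏ l, u l ^ (α l : ℕ)) = 0 → ∀ α, π (c α) = 0 from
    key (Fintype.card τ * p + 1) c
      (fun α _ => Nat.lt_succ_of_le ((sum_le_card_nsmul univ _ p fun l _ => (α l).isLt.le).trans
        (le_of_eq (by simp)))) hc α
  intro N
  induction N with
  | zero => intro c hN _ α; by_contra h0; exact Nat.not_lt_zero _ (hN α h0)
  | succ N ih =>
    intro c hN hsum
    have hpos : ∀ α, (∃ l, (α l : ℕ) ≠ 0) → π (c α) = 0 := by
      rintro α ⟨k, hk⟩
      let up : (τ → Fin p) → (τ → Fin p) := fun β =>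
        Function.update β k ⟨((β k : ℕ) + 1) % p, Nat.mod_lt _ hp.pos⟩
      let dn : (τ → Fin p) → (τ → Fin p) := fun β =>
        Function.update β k ⟨(β k : ℕ) - 1, lt_of_le_of_lt (Nat.sub_le _ _) (β k).isLt⟩
      have hupk : ∀ β, (β k : ℕ) + 1 < p → (up β k : ℕ) = (β k : ℕ) + 1 := fun β hβ => by
        simp [up, Nat.mod_eq_of_lt hβ]
      have hupne : ∀ β l, l ≠ k → up β l = β l := fun β l hl => by simp [up, hl]
      have hdnk : ∀ β, (dn β k : ℕ) = (β k : ℕ) - 1 := fun β => by simp [dn]
      have hdnne : ∀ β l, l ≠ k → dn β l = β l := fun β l hl => by simp [dn, hl]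
      have hud : ∀ β, (β k : ℕ) ≠ 0 → up (dn β) = β := fun β hβ => funext fun l => Fin.ext (by
        by_cases hl : l = k
        · subst hl
          have := (β l).isLt
          rw [hupk _ (by rw [hdnk]; omega), hdnk]
          omega
        · rw [hupne _ _ hl, hdnne _ _ hl])
      have hdu : ∀ β, (β k : ℕ) + 1 < p → dn (up β) = β := fun β hβ => funext fun l => Fin.ext (by
        by_cases hl : l = k
        · subst hl
          rw [hdnk, hupk _ hβ]
          omega
        · rw [hdnne _ _ hl, hupne _ _ hl])
      let c' : (τ → Fin p) → Q := fun β =>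
        if (β k : ℕ) + 1 < p then (((β k : ℕ) + 1 : ℕ) : Q) * c (up β) else 0
      have hbd : ∀ β, π (c' β) ≠ 0 → ∑ l, (β l : ℕ) < N := by
        intro β hβ
        simp only [c'] at hβ
        split_ifs at hβ with hlt
        · have h2 := hN (up β) fun h0 => hβ (by rw [_root_.map_mul, h0, mul_zero])
          rw [← add_sum_erase univ _ (mem_univ k), hupk β hlt] at h2
          rw [← add_sum_erase univ _ (mem_univ k)]
          have : ∑ l ∈ univ.erase k, (up β l : ℕ) = ∑ l ∈ univ.erase k, (β l : ℕ) :=
            sum_congr rfl fun l hl => by rw [hupne β l (ne_of_mem_erase hl)]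
          omega
        · exact absurd (_root_.map_zero π) hβ
      have hsum' : π (∑ β, c' β ^ p * ∏ l, u l ^ (β l : ℕ)) = 0 := by
        refine h.inj ((Eq.trans ?_ (h.kills k _ hsum)).trans (_root_.map_zero ι).symm)
        rw [_root_.map_sum, _root_.map_sum, _root_.map_sum]
        simp_rw [h.leibniz k, h.map_pow_char p k, mul_zero, add_zero, h.map_prod k]
        refine Eq.trans (sum_filter_of_ne (p := fun β : τ → Fin p => (β k : ℕ) + 1 < p)
          fun β _ hβ => ?_).symm (Eq.trans ?_ (sum_filter_of_ne
          (p := fun β : τ → Fin p => (β k : ℕ) ≠ 0) fun β _ hβ => ?_))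
        · by_contra hlt
          exact hβ (by simp [c', hlt, zero_pow hp.ne_zero])
        pick_goal 2
        · intro h0
          exact hβ (by simp [h0])
        refine sum_bij' (fun β _ => up β) (fun β _ => dn β) ?_ ?_ ?_ ?_ ?_
        · intro β hβ
          refine mem_filter.2 ⟨mem_univ _, ?_⟩
          rw [hupk β (mem_filter.1 hβ).2]
          exact Nat.succ_ne_zero _
        · intro β hβ
          have h1 := (β k).isLt
          have h2 := (mem_filter.1 hβ).2
          simp only [mem_filter, mem_univ, true_and, hdnk]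
          omega
        · exact fun β hβ => hdu β (mem_filter.1 hβ).2
        · exact fun β hβ => hud β (mem_filter.1 hβ).2
        · intro β hβ
          have hlt := (mem_filter.1 hβ).2
          have hexp : ∀ l, (up β l : ℕ) - (if l = k then 1 else 0) = (β l : ℕ) := fun l => by
            by_cases hl : l = k
            · subst hl; simp [hupk β hlt]
            · simp [hl, hupne β l hl]
          simp only [c', if_pos hlt, hexp, hupk β hlt, _root_.map_mul, _root_.map_pow, mul_pow,
            map_natCast]
          rw [show (((β k : ℕ) + 1 : ℕ) : L) ^ p = (((β k : ℕ) + 1 : ℕ) : L) from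
            map_natCast (frobenius L p) _]
          push_cast
          ring
      have h2 := ih c' hbd hsum' (dn α)
      have hlt : (dn α k : ℕ) + 1 < p := by have := (α k).isLt; rw [hdnk]; omega
      simp only [c', if_pos hlt, _root_.map_mul, map_natCast, hud α hk] at h2
      refine (mul_eq_zero.1 h2).resolve_left ?_
      intro h0
      have hdvd := (CharP.cast_eq_zero_iff R p _).1 h0
      have := Nat.le_of_dvd (Nat.succ_pos _) hdvd
      omega
    intro α
    by_cases hα : ∃ l, (α l : ℕ) ≠ 0
    · exact hpos α hα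
    push Not at hα
    rw [_root_.map_sum, sum_eq_single α (fun β _ hβ => ?_) (by simp)] at hsum
    · simpa [hα, hp.ne_zero] using hsum
    · rw [_root_.map_mul, _root_.map_pow, hpos β ?_, zero_pow hp.ne_zero, zero_mul]
      by_contra hβ'
      push Not at hβ'
      exact hβ (funext fun l => Fin.ext (by rw [hα l, hβ' l]))

omit [IsDomain L] in
/-- The monomials with exponents below `p ^ e` are independent over `p ^ e`-th powers. -/
theorem DualDerivations.indep [DecidableEq τ] (h : DualDerivations π ι u D) :
    ∀ (e : ℕ) (c : (τ → Fin (p ^ e)) → Q),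
      π (∑ α, c α ^ p ^ e * ∏ l, u l ^ (α l : ℕ)) = 0 → ∀ α, π (c α) = 0 := by
  intro e
  induction e with
  | zero =>
    intro c hc α
    have : Subsingleton (Fin (p ^ 0)) := by rw [pow_zero]; infer_instance
    rw [sum_eq_single α (fun β _ hβ => absurd (Subsingleton.elim β α) hβ)
      (fun hα => absurd (mem_univ α) hα)] at hc
    have h0 : ∀ l, (α l : ℕ) = 0 := fun l => by
      have := (α l).isLt
      simp only [pow_zero] at this ⊢
      omega
    simpa [h0] using hc
  | succ e ih =>
    intro c hc α
    let E : (τ → Fin p) × (τ → Fin (p ^ e)) ≃ (τ → Fin (p ^ (e + 1))) :=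
      ((Equiv.prodComm _ _).trans (Equiv.arrowProdEquivProdArrow τ (fun _ => Fin (p ^ e))
        fun _ => Fin p).symm).trans
        (Equiv.piCongrRight fun _ => finProdFinEquiv.trans (finCongr (pow_succ p e).symm))
    have hE : ∀ a b l, (E (a, b) l : ℕ) = (a l : ℕ) + p * (b l : ℕ) := fun a b l => by
      simp [E, Equiv.arrowProdEquivProdArrow]
    let C : (τ → Fin p) → Q := fun a => ∑ b, c (E (a, b)) ^ p ^ e * ∏ l, u l ^ (b l : ℕ)
    have hkey : π (∑ a, C a ^ p * ∏ l, u l ^ (a l : ℕ)) = 0 := by
      refine Eq.trans ?_ hc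
      rw [← E.sum_comp, Fintype.sum_prod_type, _root_.map_sum, _root_.map_sum]
      refine sum_congr rfl fun a _ => ?_
      simp only [C, _root_.map_mul, _root_.map_pow, _root_.map_sum, sum_pow_char, sum_mul,
        mul_pow, ← pow_mul, pow_succ, _root_.map_prod, ← prod_pow]
      refine sum_congr rfl fun b _ => ?_
      rw [mul_assoc, ← prod_mul_distrib]
      congr 1
      refine prod_congr rfl fun l _ => ?_
      rw [← pow_add, hE]
      congr 1
      ring
    obtain ⟨⟨a, b⟩, rfl⟩ := E.surjective α
    exact ih (fun b => c (E (a, b))) (h.indep_one p C hkey a) b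

end Independence

end Vale.Agent.P217.Point

end
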