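import Vale.Agent.P217.Point.Splitting
import Vale.Agent.P217.Point.PBasis

/-!
P217, POINT: equations with independent differentials at the generic point of `P`, and elements
whose monomials are independent over `p ^ e`-th powers modulo `P`.
-/

noncomputable section

namespace Vale.Agent.P217.Point

open IsLocalRing Finset

variable {p n h : ℕ} [Fact p.Prime]

lemma redHeight_pderiv (hh : 1 ≤ h) (j : Fin (n - h)) (f : LT p n) :
    redHeight p n h (MvPowerSeries.pderiv (WittVector p (Res p n)) (slot n h hh j) f) =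
      MvPowerSeries.pderiv (Res p n) (highVar h hh j) (redHeight p n h f) := by
  ext d
  rw [coeff_redHeight, MvPowerSeries.coeff_pderiv, MvPowerSeries.coeff_pderiv, coeff_redHeight]
  have hv : (Finsupp.embDomain (Function.Embedding.subtype fun i : Fin (n - 1) => h ≤ i.val + 1) d)
      (slot n h hh j) = d (highVar h hh j) :=
    Finsupp.embDomain_apply_self _ d (highVar h hh j)
  rw [Finsupp.embDomain_add, Finsupp.embDomain_single, Function.Embedding.coe_subtype, hv,
    map_mul, map_add, map_natCast, map_one]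
  rfl

lemma monomial_eq_prod (d : High n h →₀ ℕ) :
    (MvPowerSeries.monomial d 1 : Ser p n h) = ∏ i, MvPowerSeries.X i ^ d i := by
  have := congrArg (fun f : MvPolynomial (High n h) (Res p n) => (f : Ser p n h))
    (MvPolynomial.monomial_eq (R := Res p n) (s := d) (a := 1))
  simp only [MvPolynomial.coe_monomial] at this
  rw [this, map_one, one_mul, Finsupp.prod_fintype _ _ fun i => pow_zero _,
    ← MvPolynomial.coeToMvPowerSeries.ringHom_apply, map_prod]
  simp

variable (Q : Ideal (Ser p n h)) [hQ : Q.IsPrime]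

include hQ in
lemma charP_quotient : CharP (Ser p n h ⧸ Q) p :=
  charP_of_injective_ringHom ((Ideal.Quotient.mk Q).comp (MvPowerSeries.C)).injective p

theorem exists_pow_char_approx [IsLocalRing (Ser p n h ⧸ Q)] (hh : 1 ≤ h) (e : ℕ)
    (a : Ser p n h ⧸ Q) : ∃ c, a - c ^ p ^ e ∈ maximalIdeal (Ser p n h ⧸ Q) := by
  obtain ⟨f, rfl⟩ := Ideal.Quotient.mk_surjective a
  refine ⟨Ideal.Quotient.mk Q (MvPowerSeries.C
    ((iterateFrobeniusEquiv (Res p n) p e).symm (MvPowerSeries.constantCoeff f))), ?_⟩
  rw [← map_pow, ← map_pow, ← iterateFrobenius_def, ← coe_iterateFrobeniusEquiv,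
    RingEquiv.apply_symm_apply, ← map_sub, maximalIdeal_quotient hh Q]
  have h1 := Ideal.mem_map_of_mem (Ideal.Quotient.mk Q)
    (Vale.Agent.P202.sub_C_constantCoeff_mem_span_X f)
  rw [Ideal.map_span, ← Set.range_comp] at h1
  refine (Ideal.span_le.2 ?_ : _ ≤ _) h1
  rintro _ ⟨i, rfl⟩
  obtain ⟨j, rfl⟩ := (highVar_bijective h hh).surjective i
  exact Ideal.subset_span ⟨j, rfl⟩

theorem exists_frobenius_generators (e : ℕ) :
    ∃ s : Finset (Ser p n h ⧸ Q), ∀ a, ∃ c : Ser p n h ⧸ Q → Ser p n h ⧸ Q,
      a = ∑ g ∈ s, c g ^ p ^ e * g := by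
  classical
  have := charP_quotient Q
  refine ⟨univ.image fun α : High n h → Fin (p ^ e) =>
    Ideal.Quotient.mk Q (MvPowerSeries.monomial (digitExp α) 1), fun a => ?_⟩
  obtain ⟨f, rfl⟩ := Ideal.Quotient.mk_surjective a
  refine ⟨fun g => ∑ α ∈ univ.filter fun α : High n h → Fin (p ^ e) =>
    Ideal.Quotient.mk Q (MvPowerSeries.monomial (digitExp α) 1) = g,
      Ideal.Quotient.mk Q (component p e f α), ?_⟩
  conv_lhs => rw [← sum_component_pow_mul p e f, map_sum]
  rw [← sum_fiberwise_of_maps_to (g := fun α : High n h → Fin (p ^ e) =>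
    Ideal.Quotient.mk Q (MvPowerSeries.monomial (digitExp α) 1))
    (t := univ.image fun α : High n h → Fin (p ^ e) =>
      Ideal.Quotient.mk Q (MvPowerSeries.monomial (digitExp α) 1))
    (fun α _ => mem_image.2 ⟨α, mem_univ α, rfl⟩)]
  refine sum_congr rfl fun g _ => ?_
  rw [sum_pow_char_pow, sum_mul]
  refine sum_congr rfl fun α hα => ?_
  rw [map_mul, map_pow, (mem_filter.1 hα).2]

/-- Some partial derivative of some element of `Q` is not in `Q`. -/
theorem exists_pderiv_notMem (hQ0 : Q ≠ ⊥) :
    ∃ f ∈ Q, ∃ i, MvPowerSeries.pderiv (Res p n) i f ∉ Q := by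
  classical
  by_contra hcon
  push Not at hcon
  have := charP_quotient Q
  let D : High n h → Ser p n h →+ Ser p n h ⧸ Q := fun i =>
    (Ideal.Quotient.mk Q).toAddMonoidHom.comp
      (MvPowerSeries.pderiv (Res p n) i).toLinearMap.toAddMonoidHom
  have hD : DualDerivations (Ideal.Quotient.mk Q) (RingHom.id (Ser p n h ⧸ Q))
      (fun i : High n h => (MvPowerSeries.X i : Ser p n h)) D := by
    refine ⟨Function.injective_id, fun k a b => ?_, fun k a ha => ?_, fun k l => ?_⟩
    · simp [D]
    · exact Ideal.Quotient.eq_zero_iff_mem.2 (hcon a (Ideal.Quotient.eq_zero_iff_mem.1 ha) k)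
    · simp only [D, AddMonoidHom.coe_comp, Function.comp_apply, LinearMap.toAddMonoidHom_coe,
        RingHom.toAddMonoidHom_eq_coe, AddMonoidHom.coe_coe, Derivation.coeFn_coe, MvPowerSeries.pderiv_X]
      rw [Pi.single_apply]
      by_cases hkl : k = l
      · simp [hkl]
      · simp [hkl, Ne.symm hkl]
  suffices key : ∀ N, ∀ f ∈ Q, ∀ β : High n h →₀ ℕ, β.degree = N →
      MvPowerSeries.coeff β f = 0 from hQ0 ((Submodule.eq_bot_iff Q).2 fun f hf =>
    MvPowerSeries.ext fun β => by rw [map_zero]; exact key _ f hf β rfl)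
  intro N
  induction N using Nat.strong_induction_on with
  | _ N ih =>
    intro f hf β hβ
    have hp : p.Prime := Fact.out
    by_contra hne
    have hsum : Ideal.Quotient.mk Q (∑ α : High n h → Fin p,
        component p 1 f (fun i => (α i).cast (pow_one p).symm) ^ p *
          ∏ l, (MvPowerSeries.X l : Ser p n h) ^ (α l : ℕ)) = 0 := by
      rw [Ideal.Quotient.eq_zero_iff_mem]
      convert hf using 1
      conv_rhs => rw [← sum_component_pow_mul p 1 f]
      refine Fintype.sum_equiv (Equiv.piCongrRight fun _ => finCongr (pow_one p).symm) _ _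
        fun α => ?_
      rw [monomial_eq_prod]
      simp only [digitExp, Finsupp.coe_equivFunOnFinite_symm, pow_one]
      rfl
    let α₀ : High n h → Fin p := fun i => ⟨β i % p, Nat.mod_lt _ hp.pos⟩
    let γ : High n h →₀ ℕ := Finsupp.equivFunOnFinite.symm fun i => β i / p
    have hc := hD.indep_one p _ hsum α₀
    have hβγ : p ^ 1 • γ + digitExp (fun i => (α₀ i).cast (pow_one p).symm) = β := by
      ext i
      simpa [γ, α₀, digitExp] using Nat.div_add_mod (β i) p
    have hβ0 : β ≠ 0 := by
      rintro rfl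
      have hfm : f ∈ maximalIdeal (Ser p n h) := IsLocalRing.le_maximalIdeal hQ.ne_top hf
      refine hne ?_
      rw [MvPowerSeries.coeff_zero_eq_constantCoeff_apply]
      by_contra h0
      exact (mem_maximalIdeal f).1 hfm
        (MvPowerSeries.isUnit_iff_constantCoeff.2 (IsUnit.mk0 _ h0))
    have hlt : γ.degree < N := by
      rw [← hβ, Finsupp.degree_eq_sum, Finsupp.degree_eq_sum]
      obtain ⟨i, hi⟩ : ∃ i, β i ≠ 0 := by
        by_contra h0
        push Not at h0
        exact hβ0 (Finsupp.ext h0)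
      refine sum_lt_sum (fun l _ => Nat.div_le_self _ _) ⟨i, mem_univ i, ?_⟩
      exact Nat.div_lt_self (Nat.pos_of_ne_zero hi) hp.one_lt
    have h2 := ih _ hlt _ (Ideal.Quotient.eq_zero_iff_mem.1 hc) γ rfl
    rw [coeff_component, hβγ, map_eq_zero_iff _ (RingEquiv.injective _)] at h2
    exact hne h2

/-- Independent members of a family of vectors and coordinates dual to a complement of its span. -/
lemma exists_split {L : Type} [Field L] {r : ℕ} {ι : Type} (g : ι → Fin r → L) :
    ∃ s δ, s + δ = r ∧ ((∃ i, g i ≠ 0) → 0 < s) ∧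
      (∃ a : Fin s → ι, LinearIndependent L fun i => g (a i)) ∧
      ∃ (T : Fin δ → Fin r) (φ : Fin δ → (Fin r → L) →ₗ[L] L), (∀ k i, φ k (g i) = 0) ∧
        ∀ k l, φ k (Pi.single (T l) 1) = if k = l then 1 else 0 := by
  classical
  obtain ⟨κ, a, -, hspan, hli⟩ := exists_linearIndependent' L g
  have : Finite κ := hli.finite
  have := Fintype.ofFinite κ
  set V := Submodule.span L (Set.range g) with hV
  have hs : Module.finrank L V = Fintype.card κ := by
    rw [← hspan, finrank_span_eq_card hli]
  let w : Fin r → (Fin r → L) ⧸ V := fun j => V.mkQ (Pi.single j 1)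
  obtain ⟨κ', a', -, hspan', hli'⟩ := exists_linearIndependent' L w
  have : Finite κ' := hli'.finite
  have := Fintype.ofFinite κ'
  have htop : Submodule.span L (Set.range (w ∘ a')) = ⊤ := by
    rw [hspan', eq_top_iff]
    intro y _
    obtain ⟨y, rfl⟩ := V.mkQ_surjective y
    rw [pi_eq_sum_univ' y, map_sum]
    refine Submodule.sum_mem _ fun j _ => ?_
    rw [map_smul]
    exact Submodule.smul_mem _ _ (Submodule.subset_span ⟨j, rfl⟩)
  obtain ⟨B, hB⟩ : ∃ B : Module.Basis κ' L ((Fin r → L) ⧸ V), ∀ i, B i = w (a' i) :=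
    ⟨Module.Basis.mk hli' htop.ge, fun i => Module.Basis.mk_apply hli' htop.ge i⟩
  let E := (Fintype.equivFin κ').symm
  refine ⟨Fintype.card κ, Fintype.card κ', ?_, fun ⟨i, hi⟩ => ?_,
    ⟨fun i => a ((Fintype.equivFin κ).symm i), hli.comp _ (Equiv.injective _)⟩,
    fun l => a' (E l), fun k => (B.coord (E k)).comp V.mkQ, fun k i => ?_, fun k l => ?_⟩
  · rw [← hs, ← Module.finrank_eq_card_basis B, add_comm, V.finrank_quotient_add_finrank,
      Module.finrank_fintype_fun_eq_card, Fintype.card_fin]
  · rw [← hs]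
    exact Module.finrank_pos_iff_exists_ne_zero.2
      ⟨⟨g i, Submodule.subset_span ⟨i, rfl⟩⟩, fun h0 => hi (congrArg Subtype.val h0)⟩
  · have : g i ∈ V := Submodule.subset_span ⟨i, rfl⟩
    simp [(Submodule.Quotient.mk_eq_zero V).2 this]
  · have : V.mkQ (Pi.single (a' (E l)) 1) = B (E l) := (hB (E l)).symm
    simp only [LinearMap.coe_comp, Function.comp_apply, this, Module.Basis.coord_apply,
      Module.Basis.repr_self, Finsupp.single_apply]
    exact if_congr ⟨fun e => (E.injective e).symm, fun e => e ▸ rfl⟩ rfl rfl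

/-- Equations and independent monomials. -/
theorem exists_jacobian (hh : 1 ≤ h) (hQ0 : Q ≠ ⊥) :
    ∃ δ, δ < n - h ∧
      (∃ f : Fin (n - h - δ) → Ser p n h, (∀ i, f i ∈ Q) ∧
        LinearIndependent (FractionRing (Ser p n h ⧸ Q))
          (fun (i : Fin (n - h - δ)) (j : Fin (n - h)) => algebraMap (Ser p n h ⧸ Q)
            (FractionRing (Ser p n h ⧸ Q)) (Ideal.Quotient.mk Q
              (MvPowerSeries.pderiv (Res p n) (highVar h hh j) (f i))))) ∧
      ∃ u' : Fin δ → Ser p n h ⧸ Q, ∀ e (c : (Fin δ → Fin (p ^ e)) → Ser p n h ⧸ Q),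
        ∑ α, c α ^ p ^ e * ∏ l, u' l ^ (α l : ℕ) = 0 → ∀ α, c α = 0 := by
  classical
  have := charP_quotient Q
  set R := Ser p n h ⧸ Q with hR
  set L := FractionRing R with hL
  have : CharP L p := charP_of_injective_ringHom (IsFractionRing.injective R L) p
  let ι : R →+* L := algebraMap R L
  let v : Ser p n h →+ Fin (n - h) → L := AddMonoidHom.mk'
    (fun f j => ι (Ideal.Quotient.mk Q (MvPowerSeries.pderiv (Res p n) (highVar h hh j) f)))
    fun a b => funext fun j => by simp only [map_add, Pi.add_apply]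
  have hv : ∀ f j, v f j =
      ι (Ideal.Quotient.mk Q (MvPowerSeries.pderiv (Res p n) (highVar h hh j) f)) := fun _ _ => rfl
  have hv_mul : ∀ a b, v (a * b) =
      ι (Ideal.Quotient.mk Q a) • v b + ι (Ideal.Quotient.mk Q b) • v a := fun a b =>
    funext fun j => by
      simp only [hv, Derivation.leibniz, smul_eq_mul, map_add, map_mul, Pi.add_apply,
        Pi.smul_apply]
  have hv_X : ∀ l, v (MvPowerSeries.X (highVar h hh l)) = Pi.single l 1 := fun l =>
    funext fun j => by
      rw [hv, MvPowerSeries.pderiv_X, Pi.single_apply, Pi.single_apply]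
      by_cases hjl : j = l
      · simp [hjl]
      · have hne : highVar h hh l ≠ highVar h hh j :=
          fun e => hjl ((highVar_bijective h hh).injective e).symm
        simp [hjl, hne]
  obtain ⟨s, δ, hsd, hpos, ⟨a, hli⟩, T, φ, hφ0, hφ1⟩ := exists_split fun f : Q => v f
  have hs : 0 < s := by
    obtain ⟨f, hf, i, hi⟩ := exists_pderiv_notMem Q hQ0
    obtain ⟨j, rfl⟩ := (highVar_bijective h hh).surjective i
    refine hpos ⟨⟨f, hf⟩, fun h0 => hi ?_⟩
    have h1 : v f j = 0 := by rw [show v f = 0 from h0]; rfl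
    exact Ideal.Quotient.eq_zero_iff_mem.1
      (IsFractionRing.injective R L (h1.trans (map_zero _).symm))
  refine ⟨δ, by omega, ?_, fun l => gens hh Q (T l), fun e c hc α => ?_⟩
  · let E : Fin (n - h - δ) ≃ Fin s := finCongr (by omega)
    exact ⟨fun i => (a (E i) : Ser p n h), fun i => (a (E i)).2, hli.comp E E.injective⟩
  let D : Fin δ → Ser p n h →+ L := fun k => (φ k).toAddMonoidHom.comp v
  have hD : DualDerivations (Ideal.Quotient.mk Q) ι
      (fun l => (MvPowerSeries.X (highVar h hh (T l)) : Ser p n h)) D := by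
    refine ⟨IsFractionRing.injective R L, fun k f g => ?_, fun k f hf => ?_, fun k l => ?_⟩
    · simp only [D, AddMonoidHom.coe_comp, Function.comp_apply, hv_mul,
        LinearMap.toAddMonoidHom_coe, map_add, map_smul, smul_eq_mul]
    · exact hφ0 k ⟨f, Ideal.Quotient.eq_zero_iff_mem.1 hf⟩
    · simp only [D, AddMonoidHom.coe_comp, Function.comp_apply, hv_X,
        LinearMap.toAddMonoidHom_coe, hφ1]
  choose C hC using fun β => Ideal.Quotient.mk_surjective (c β)
  rw [← hC α]
  refine hD.indep p e C ?_ α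
  rw [← hc, map_sum]
  refine sum_congr rfl fun β _ => ?_
  rw [map_mul, map_pow, hC, map_prod]
  simp only [map_pow]
  rfl

end Vale.Agent.P217.Point

end
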