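import Vale.Agent.P217.Point.Growth

/-!
P217, POINT: a Moore determinant of exact norm gives residues independent over the fixed field.
-/

noncomputable section

namespace Vale.Agent.P217.Point

open Finset

lemma map_moore {R R' : Type*} [CommRing R] [CommRing R'] (x : R →+* R') {N₀ δ : ℕ}
    (z : Fin N₀ → R) (P : ℕ) (S : Fin δ → Fin N₀) :
    x (moore z P S) = moore (fun i => x (z i)) P S := by
  rw [moore, moore, RingHom.map_det]
  congr 1
  ext s j
  simp

/-- The Moore determinant is divisible by the first element, with cofactor one degree lower. -/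
theorem exists_moore_eq_mul {R : Type*} [CommRing R] {N₀ δ P : ℕ} (hP : 1 ≤ P) (z : Fin N₀ → R)
    (S : Fin δ → Fin N₀) (s₀ : Fin δ) :
    ∃ M', moore z P S = z (S s₀) * M' ∧
      M' ∈ Ideal.span (Set.range z) ^ ((∑ j : Fin δ, P ^ (j : ℕ)) - 1) := by
  classical
  set A : Matrix (Fin δ) (Fin δ) R :=
    Matrix.of fun s j : Fin δ => z (S s) ^ P ^ (j : ℕ) with hA
  let w : Fin δ → R := fun j => z (S s₀) ^ (P ^ (j : ℕ) - 1)
  refine ⟨(A.updateRow s₀ w).det, ?_, ?_⟩
  · rw [← Matrix.det_updateRow_smul, moore]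
    congr 1
    ext s j
    by_cases hs : s = s₀
    · subst hs
      simp only [Matrix.updateRow_self, Pi.smul_apply, smul_eq_mul, Matrix.of_apply, w]
      rw [← pow_succ', Nat.sub_add_cancel (Nat.one_le_pow _ _ hP)]
    · simp [Matrix.updateRow_ne hs, A]
  · rw [Matrix.det_apply']
    refine Ideal.sum_mem _ fun σ _ => Ideal.mul_mem_left _ _ ?_
    have hdeg : ∑ j : Fin δ, (if σ j = s₀ then P ^ (j : ℕ) - 1 else P ^ (j : ℕ)) =
        (∑ j : Fin δ, P ^ (j : ℕ)) - 1 := by
      rw [← add_sum_erase univ _ (mem_univ (σ.symm s₀)),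
        ← add_sum_erase univ (fun j : Fin δ => P ^ (j : ℕ)) (mem_univ (σ.symm s₀)),
        if_pos (σ.apply_symm_apply s₀),
        sum_congr rfl fun j hj => if_neg fun e : σ j = s₀ =>
          ne_of_mem_erase hj (σ.injective (by rw [e, σ.apply_symm_apply]))]
      have := Nat.one_le_pow (σ.symm s₀ : ℕ) P hP
      omega
    rw [← hdeg, ← prod_pow_eq_pow_sum]
    refine Ideal.prod_mem_prod fun j _ => ?_
    by_cases hj : σ j = s₀
    · rw [if_pos hj, hj, Matrix.updateRow_self]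
      exact Ideal.pow_mem_pow (Ideal.subset_span (Set.mem_range_self _)) _
    · rw [if_neg hj, Matrix.updateRow_ne hj]
      exact Ideal.pow_mem_pow (Ideal.subset_span (Set.mem_range_self _)) _

variable {K : Type*} [NormedField K] [IsUltrametricDist K] {N₀ δ P : ℕ}

omit [IsUltrametricDist K] in
lemma norm_fixed {γ : K} (hP : 1 < P) (hγ : γ ^ P = γ) (h0 : γ ≠ 0) : ‖γ‖ = 1 := by
  have h1 : γ ^ (P - 1) = 1 := by
    refine mul_right_cancel₀ h0 ?_
    rw [← pow_succ, Nat.sub_add_cancel hP.le, hγ, one_mul]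
  have h2 : ‖γ‖ ^ (P - 1) = 1 := by rw [← norm_pow, h1, norm_one]
  exact (pow_eq_one_iff_of_nonneg (norm_nonneg γ) (by omega)).1 h2

/-- Residues of the chosen elements are independent over `F_P`. -/
theorem residues_indep {p h : ℕ} [Fact p.Prime] [CharP K p] (hh : 1 ≤ h) (hP : P = p ^ h)
    (z : Fin N₀ → K) (S : Fin δ → Fin N₀) {ρ : ℝ} (hρ : 0 < ρ) (hle : ∀ i, ‖z i‖ ≤ ρ)
    (hdet : ‖moore z P S‖ = ρ ^ ∑ j : Fin δ, P ^ (j : ℕ)) (γ : Fin δ → K)
    (hγ : ∀ i, γ i ^ P = γ i) (hs : ‖∑ i, γ i * z (S i)‖ < ρ) (i : Fin δ) : γ i = 0 := by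
  classical
  by_contra hne
  have hP1 : 1 < P := hP ▸ Nat.one_lt_pow (by omega) (Fact.out : p.Prime).one_lt
  set A : Matrix (Fin δ) (Fin δ) K :=
    Matrix.of fun s j : Fin δ => z (S s) ^ P ^ (j : ℕ) with hA
  have hrow : ∑ s, γ s • A s = fun j : Fin δ => (∑ s, γ s * z (S s)) ^ P ^ (j : ℕ) := by
    funext j
    rw [Finset.sum_apply]
    have hq : P ^ (j : ℕ) = p ^ (h * j) := by rw [hP, ← pow_mul]
    rw [hq, sum_pow_char_pow]
    refine sum_congr rfl fun s _ => ?_
    rw [Pi.smul_apply, smul_eq_mul, hA, Matrix.of_apply, hq, mul_pow, ← hq]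
    congr 1
    induction (j : ℕ) with
    | zero => rw [pow_zero, pow_one]
    | succ t ih => rw [pow_succ, pow_mul, ← ih, hγ s]
  have h1 := Matrix.det_updateRow_sum A i γ
  rw [hrow] at h1
  have h2 : ‖(A.updateRow i fun j : Fin δ => (∑ s, γ s * z (S s)) ^ P ^ (j : ℕ)).det‖ <
      ρ ^ ∑ j : Fin δ, P ^ (j : ℕ) := by
    rw [Matrix.det_apply]
    refine lt_of_le_of_lt (IsUltrametricDist.norm_sum_le_of_forall_le_of_nonempty univ_nonempty
      (C := (univ : Finset (Equiv.Perm (Fin δ))).sup' univ_nonempty fun σ => ‖∏ j,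
        A.updateRow i (fun j : Fin δ => (∑ s, γ s * z (S s)) ^ P ^ (j : ℕ)) (σ j) j‖) fun σ _ => ?_)
      ((Finset.sup'_lt_iff _).2 fun σ _ => ?_)
    · refine le_trans (le_of_eq ?_) (Finset.le_sup' (f := fun σ : Equiv.Perm (Fin δ) => ‖∏ j,
        A.updateRow i (fun j : Fin δ => (∑ s, γ s * z (S s)) ^ P ^ (j : ℕ)) (σ j) j‖) (mem_univ σ))
      rcases Int.units_eq_one_or (Equiv.Perm.sign σ) with e | e <;> simp [e]
    · rw [norm_prod, ← prod_pow_eq_pow_sum, ← mul_prod_erase univ _ (mem_univ (σ.symm i)),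
        ← mul_prod_erase univ (fun j : Fin δ => ρ ^ P ^ (j : ℕ)) (mem_univ (σ.symm i)),
        Equiv.apply_symm_apply, Matrix.updateRow_self, norm_pow]
      refine lt_of_le_of_lt (mul_le_mul_of_nonneg_left ?_ (pow_nonneg (norm_nonneg _) _))
        (mul_lt_mul_of_pos_right (pow_lt_pow_left₀ hs (norm_nonneg _) (by positivity))
          (prod_pos fun j _ => pow_pos hρ _))
      refine prod_le_prod (fun j _ => norm_nonneg _) fun j hj => ?_
      rw [Matrix.updateRow_ne fun e : σ j = i => ne_of_mem_erase hj (σ.injective (by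
        rw [e, Equiv.apply_symm_apply])), hA, Matrix.of_apply, norm_pow]
      exact pow_le_pow_left₀ (norm_nonneg _) (hle _) _
  rw [h1, smul_eq_mul, norm_mul, norm_fixed hP1 (hγ i) hne, one_mul] at h2
  have : moore z P S = A.det := rfl
  rw [← this, hdet] at h2
  exact lt_irrefl _ h2

end Vale.Agent.P217.Point

end
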