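import Vale.Agent.P217.Point.Base
import Vale.Agent.P217.Orbit.Points
import Vale.Agent.P217.Orbit.PointFacts
import Vale.Agent.P217.EvalRoots

/-!
P217, POINT: the small roots of the `p`-series at the point form a group of order `p ^ (n - h)`.
-/

noncomputable section

namespace Vale.Agent.P217.Point

open Finset

variable {p n h : ℕ} [Fact p.Prime] {K : Type} [NormedField K] [IsUltrametricDist K]
  [CompleteSpace K]

lemma ev₁_mul {f g : PowerSeries K} (hf : IntegralSeries f) (hg : IntegralSeries g) {t : K}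
    (ht : ‖t‖ < 1) : ev₁ (f * g) t = ev₁ f t * ev₁ g t :=
  ev_mul (conv_of_integral hf fun _ => ht) (conv_of_integral hg fun _ => ht)

omit [IsUltrametricDist K] [CompleteSpace K] in
lemma integral_map_series {R : Type} [CommRing R] (y : R →+* K) (hy : ∀ a, ‖y a‖ ≤ 1)
    (f : PowerSeries R) : IntegralSeries (PowerSeries.map y f) :=
  IntegralSeries.map y hy f

omit [CompleteSpace K] in
/-- The coefficients of a product of `X - z` with small `z`. -/
lemma norm_coeff_prod_le {ι : Type} (z : ι → K) (hz : ∀ i, ‖z i‖ < 1) (s : Finset ι) :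
    ∀ m, ‖(∏ i ∈ s, (Polynomial.X - Polynomial.C (z i))).coeff m‖ ≤ 1 ∧
      (m < s.card → ‖(∏ i ∈ s, (Polynomial.X - Polynomial.C (z i))).coeff m‖ < 1) := by
  classical
  induction s using Finset.induction_on with
  | empty =>
    intro m
    refine ⟨?_, fun hm => absurd hm (Nat.not_lt_zero _)⟩
    rw [prod_empty, Polynomial.coeff_one]
    split_ifs <;> simp
  | insert a s ha ih =>
    intro m
    rw [prod_insert ha, sub_mul, Polynomial.coeff_sub, Polynomial.coeff_C_mul, card_insert_of_notMem ha,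
      sub_eq_add_neg]
    have hmul : ∀ k, ‖-(z a * (∏ i ∈ s, (Polynomial.X - Polynomial.C (z i))).coeff k)‖ < 1 :=
      fun k => by
        rw [norm_neg, norm_mul]
        exact lt_of_le_of_lt (mul_le_of_le_one_right (norm_nonneg _) (ih k).1) (hz a)
    rcases m with _ | m
    · rw [Polynomial.mul_coeff_zero, Polynomial.coeff_X_zero, zero_mul, zero_add]
      exact ⟨(hmul 0).le, fun _ => hmul 0⟩
    · rw [Polynomial.coeff_X_mul]
      refine ⟨(IsUltrametricDist.norm_add_le_max _ _).trans (max_le (ih m).1 (hmul _).le),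
        fun hm => lt_of_le_of_lt (IsUltrametricDist.norm_add_le_max _ _)
          (max_lt ((ih m).2 (by omega)) (hmul _))⟩

/-- The group of small roots. -/
theorem exists_root_group [IsAlgClosed K] [CharP K p] {F : FormalGroup (LT p n)} (hh : 1 ≤ h)
    (hn : h < n) (hF : IsUniversalLaw p n F) {e : PowerSeries (LT p n)} (he : IsPSeries p n e)
    (hhom : IsHom F F e) (hE : PSeriesFacts p n e) {x : LT p n →+* K}
    (y : Ser p n h →+* K) (hy : y.comp (redHeight p n h) = x) (hy1 : ∀ a, ‖y a‖ ≤ 1)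
    (hu : x (par p n h) ≠ 0) {W : Polynomial (Ser p n h)} {ε : PowerSeries (Ser p n h)}
    (hε : IsUnit ε) (hg : gser h e = (W : PowerSeries (Ser p n h)) * ε)
    (zK : Fin (p ^ (n - h)) → K)
    (hprod : W.map y = ∏ i, (Polynomial.X - Polynomial.C (zK i))) (hz : ∀ i, ‖zK i‖ < 1)
    [Fact (IntegralSeries (F.map x).toPowerSeries)] [(F.map x).IsComm] :
    ∃ S : AddSubgroup (Pt (F.map x)), Nat.card S = p ^ (n - h) ∧ (∀ a ∈ S, p • a = 0) ∧
      (∀ a ∈ S, ev₁ (PowerSeries.map x e) a.val = 0) ∧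
      (∀ i, ∃ a ∈ S, a.val ^ p ^ h = zK i) ∧ ∀ a ∈ S, ∃ i, a.val ^ p ^ h = zK i := by
  classical
  have hp : p.Prime := Fact.out
  have hx1 : ∀ a, ‖x a‖ ≤ 1 := fun a => hy ▸ hy1 _
  have hker : ∀ a ∈ heightIdeal p n h, x a = 0 := fun a ha => by
    have h0 : a ∈ RingHom.ker (redHeight p n h) := by
      rw [← heightIdeal_eq_ker hh hn.le]
      exact ha
    rw [← hy, RingHom.comp_apply, RingHom.mem_ker.1 h0, map_zero]
  have hint : IntegralSeries (F.map x).toPowerSeries := Fact.out
  set ee := PowerSeries.map x e with hee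
  have heei : IntegralSeries ee := integral_map_series x hx1 e
  have homK : IsHom (F.map x) (F.map x) ee := hhom.map x
  set gK := gSer h e x with hgK
  have hgi : IntegralSeries gK := integralSeries_powerSeries_iff.2 (integral_gSer hx1 h e)
  have hgy : gK = ((W.map y : Polynomial K) : PowerSeries K) * PowerSeries.map y ε := by
    rw [Polynomial.polynomial_map_coe, ← map_mul, ← hg]
    refine PowerSeries.ext fun b => ?_
    rw [hgK, coeff_gSer, PowerSeries.coeff_map, gser, PowerSeries.coeff_mk, ← hy]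
    rfl
  have hWi : IntegralSeries ((W.map y : Polynomial K) : PowerSeries K) := by
    rw [Polynomial.polynomial_map_coe]
    exact integral_map_series y hy1 _
  have hval : ∀ t : K, ‖t‖ < 1 →
      ev₁ gK t = (∏ i, (t - zK i)) * ev₁ (PowerSeries.map y ε) t := fun t ht => by
    rw [hgy, ev₁_mul hWi (integral_map_series y hy1 ε) ht, ev₁_coe, hprod,
      Polynomial.eval_prod]
    simp
  have hunit : ∀ t : K, ‖t‖ < 1 → ev₁ (PowerSeries.map y ε) t ≠ 0 := fun t ht h0 => by
    obtain ⟨ε', hε'⟩ := hε.exists_right_inv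
    have h1 := ev₁_mul (integral_map_series y hy1 ε) (integral_map_series y hy1 ε') ht
    rw [← map_mul, hε', map_one, h0, zero_mul] at h1
    exact one_ne_zero ((ev_one fun _ : Unit => t).symm.trans h1)
  have hev : ∀ t, ev₁ ee t = ev₁ gK (t ^ p ^ h) := ev₁_map_eq_gSer hE hn.le hker
  have hiff : ∀ t : K, ‖t‖ < 1 → (ev₁ ee t = 0 ↔ ∃ i, t ^ p ^ h = zK i) := fun t ht => by
    have ht' : ‖t ^ p ^ h‖ < 1 := by
      rw [norm_pow]
      exact pow_lt_one₀ (norm_nonneg _) ht (pow_ne_zero _ hp.ne_zero)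
    rw [hev, hval _ ht', mul_eq_zero, or_iff_left (hunit _ ht'), prod_eq_zero_iff]
    simp [sub_eq_zero]
  choose w hw using fun i => IsAlgClosed.exists_pow_nat_eq (zK i) (pow_pos hp.pos h)
  have hw1 : ∀ i, ‖w i‖ < 1 := fun i => by
    by_contra hge
    have h2 := hz i
    rw [← hw i, norm_pow] at h2
    exact absurd h2 (not_lt.2 (one_le_pow₀ (not_lt.1 hge)))
  set E := Pt.hom (A := F.map x) (B := F.map x) ee heei homK with hE'
  have hwS : ∀ i, (⟨w i, hw1 i⟩ : Pt (F.map x)) ∈ E.ker := fun i =>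
    Pt.ext ((hiff _ (hw1 i)).2 ⟨i, hw i⟩)
  have hrootsinj : Function.Injective zK := by
    intro i j hij
    by_contra hne
    set c₁ := x (par p n h) with hc₁
    have hc0 : 0 < ‖c₁‖ := norm_pos_iff.2 hu
    have hc1 : ‖c₁‖ < 1 := by
      have hi : c₁ = y (PowerSeries.coeff 1 (gser h e)) := by
        rw [hc₁, ← coeff_one_gSer hF he hh hn.le hker, coeff_gSer, gser, PowerSeries.coeff_mk, ← hy]
        rfl
      have hsum : PowerSeries.coeff 1 (gser h e) =
          W.coeff 0 * PowerSeries.coeff 1 ε + W.coeff 1 * PowerSeries.constantCoeff ε := by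
        rw [hg, PowerSeries.coeff_mul, Finset.Nat.sum_antidiagonal_eq_sum_range_succ
          (fun a b => PowerSeries.coeff a (W : PowerSeries _) * PowerSeries.coeff b ε),
          sum_range_succ, sum_range_one, Polynomial.coeff_coe, Polynomial.coeff_coe,
          PowerSeries.coeff_zero_eq_constantCoeff_apply]
      rw [hi, hsum, map_add, map_mul, map_mul]
      have hsmallW : ∀ m, m < p ^ (n - h) → ‖y (W.coeff m)‖ < 1 := fun m hm => by
        rw [← Polynomial.coeff_map, hprod]
        exact (norm_coeff_prod_le zK hz univ m).2 (by simpa using hm)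
      have h2 : 1 < p ^ (n - h) := Nat.one_lt_pow (by omega) hp.one_lt
      refine lt_of_le_of_lt (IsUltrametricDist.norm_add_le_max _ _) (max_lt ?_ ?_) <;>
        rw [norm_mul]
      · exact lt_of_le_of_lt (mul_le_of_le_one_right (norm_nonneg _) (hy1 _)) (hsmallW 0 (by omega))
      · exact lt_of_le_of_lt (mul_le_of_le_one_right (norm_nonneg _) (hy1 _)) (hsmallW 1 h2)
    set b := c₁ ^ 2 with hb
    have hb1 : ‖b‖ < 1 := by rw [hb, norm_pow]; exact pow_lt_one₀ (norm_nonneg _) hc1 two_ne_zero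
    set s := b ^ p ^ h with hs
    have hsn : ‖s‖ = ‖b‖ ^ p ^ h := norm_pow _ _
    have hs0 : 0 < ‖s‖ := by rw [hsn, hb, norm_pow]; positivity
    have hsc : ‖s‖ < ‖c₁‖ := by
      rw [hsn, hb, norm_pow, ← pow_mul]
      exact pow_lt_self_of_lt_one₀ hc0 hc1 (by
        have := Nat.one_le_pow h p hp.pos
        omega)
    have hs1 : ‖s‖ < 1 := hsc.trans hc1
    set c := ev (F.map x).toPowerSeries ![w i, b] with hc
    have hc' : ‖c‖ < 1 := norm_fadd_lt hint (hw1 i) hb1
    have hca : ‖c - w i‖ ≤ ‖b‖ := by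
      have := norm_ev_sub_ev_le hint (norm_pair_lt (hw1 i) hb1)
        (norm_pair_lt (hw1 i) (by simp : ‖(0 : K)‖ < 1)) (norm_nonneg b)
        (Fin.forall_fin_two.2 ⟨by simp, by simp⟩)
      rwa [fadd_zero hint (hw1 i)] at this
    have he1 : ev₁ ee c = ev₁ gK s := by
      rw [hc, ev₁_fadd hint hint heei homK (hw1 i) hb1, (hiff _ (hw1 i)).2 ⟨i, hw i⟩,
        zero_fadd hint (show ‖ev₁ ee b‖ < 1 from norm_ev_lt_one heei homK.1 fun _ => hb1), hev]
    have hub : ‖ev₁ gK s‖ ≤ ‖s‖ ^ 2 := by
      have hcp : ‖c ^ p ^ h‖ < 1 := by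
        rw [norm_pow]
        exact pow_lt_one₀ (norm_nonneg _) hc' (pow_ne_zero _ hp.ne_zero)
      rw [← he1, hev, hval _ hcp, norm_mul]
      refine (mul_le_of_le_one_right (norm_nonneg _) (norm_ev_le_one
        (integral_map_series y hy1 ε) fun _ => hcp.le)).trans ?_
      rw [norm_prod, ← mul_prod_erase univ _ (mem_univ i),
        ← mul_prod_erase (univ.erase i) _ (mem_erase.2 ⟨Ne.symm hne, mem_univ j⟩), ← hij, ← mul_assoc]
      refine (mul_le_of_le_one_right (by positivity) (prod_le_one (fun _ _ => norm_nonneg _)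
        fun l _ => (IsUltrametricDist.norm_add_le_max _ _).trans
          (max_le hcp.le (by rw [norm_neg]; exact (hz l).le)) |> fun h' => by
            simpa [sub_eq_add_neg] using h')).trans (le_of_le_of_eq ?_ (pow_two _).symm)
      have hle : ‖c ^ p ^ h - zK i‖ ≤ ‖s‖ := by
        rw [← hw i, ← sub_pow_char_pow, norm_pow, hsn]
        exact pow_le_pow_left₀ (norm_nonneg _) hca _
      exact mul_le_mul hle hle (norm_nonneg _) (norm_nonneg _)
    have hlow : ‖ev₁ gK s‖ = ‖c₁‖ * ‖s‖ := by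
      set L : PowerSeries K := PowerSeries.C c₁ * PowerSeries.X with hL
      have hLi : IntegralSeries L := integralSeries_powerSeries_iff.2 fun m => by
        rw [hL, PowerSeries.coeff_C_mul, PowerSeries.coeff_X]
        split_ifs <;> simp [hc1.le]
      have hdiff : ∀ d : Unit →₀ ℕ, d.degree < 2 →
          MvPowerSeries.coeff d (gK - L : PowerSeries K) = 0 := by
        intro d hd
        rw [← PowerSeries.coeff_def (s := d) (n := d ()) rfl]
        have hd2 : d () < 2 := lt_of_le_of_lt (Finsupp.le_degree _ _) hd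
        interval_cases d ()
        · simp [hL, constantCoeff_gSer he, hgK]
        · rw [map_sub, hgK, coeff_one_gSer hF he hh hn.le hker, hL, PowerSeries.coeff_C_mul,
            PowerSeries.coeff_X, if_pos rfl, mul_one, ← hc₁, sub_self]
      have h3 := norm_ev_le_pow (hgi.sub hLi) hdiff (norm_nonneg s) hs1.le fun _ => le_rfl
      rw [ev_sub (conv_of_integral hgi fun _ => hs1) (conv_of_integral hLi fun _ => hs1)] at h3
      have hLv : ev L (fun _ : Unit => s) = c₁ * s := by
        rw [hL, show (PowerSeries.C c₁ : PowerSeries K) = MvPowerSeries.C c₁ from rfl, ev_C_mul,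
          powerSeries_X_eq, ev_X]
      rw [hLv] at h3
      change ‖ev₁ gK s - c₁ * s‖ ≤ ‖s‖ ^ 2 at h3
      have h4 : ‖s‖ ^ 2 < ‖c₁ * s‖ := by
        rw [norm_mul, sq]
        exact mul_lt_mul_of_pos_right hsc hs0
      rw [← norm_mul, ← sub_add_cancel (ev₁ gK s) (c₁ * s),
        IsUltrametricDist.norm_add_eq_max_of_norm_ne_norm (h3.trans_lt h4).ne,
        max_eq_right (h3.trans_lt h4).le]
    rw [hlow, sq] at hub
    exact absurd (le_of_mul_le_mul_right hub hs0) (not_le.2 hsc)
  refine ⟨E.ker, ?_, fun a ha => Pt.ext ?_, fun a ha => congrArg Pt.val ha,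
    fun i => ⟨_, hwS i, hw i⟩, fun a ha => (hiff _ a.small).1 (congrArg Pt.val ha)⟩
  · let f : Fin (p ^ (n - h)) → E.ker := fun i => ⟨⟨w i, hw1 i⟩, hwS i⟩
    have hf : Function.Bijective f := by
      refine ⟨fun i j hij => hrootsinj ?_, fun a => ?_⟩
      · rw [← hw i, ← hw j, show w i = w j from congrArg (fun a : E.ker => a.1.val) hij]
      · obtain ⟨i, hi⟩ := (hiff _ a.1.small).1 (congrArg Pt.val a.2)
        refine ⟨i, Subtype.ext (Pt.ext (iterateFrobenius_inj K p h ?_))⟩
        rw [iterateFrobenius_def, iterateFrobenius_def, hi]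
        exact hw i
    rw [← Nat.card_congr (Equiv.ofBijective f hf), Nat.card_fin]
  · rw [Pt.val_nsmul, copies_p_eq hF he hx1 a.small]
    exact congrArg Pt.val ha

end Vale.Agent.P217.Point

end
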