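import Vale.Agent.P217.Orbit.Points

/-!
P217, POINT: choice of an `F_p`-basis of the torsion points adapted to given good residues.
-/

noncomputable section

namespace Vale.Agent.P217.Point

open Finset

variable {p : ℕ} [Fact p.Prime] {K : Type} [NormedField K] [IsUltrametricDist K]

/-- The open ball around the origin as a subgroup. -/
def ballGroup (rho : ℝ) (h0 : 0 < rho) : AddSubgroup K where
  carrier := {z | ‖z‖ < rho}
  add_mem' ha hb := (IsUltrametricDist.norm_add_le_max _ _).trans_lt (max_lt ha hb)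
  zero_mem' := by simp [h0]
  neg_mem' ha := by simpa using ha

omit [IsUltrametricDist K] in
/-- A fixed point of `x ↦ x ^ p` is a natural number. -/
lemma exists_natCast_of_pow_eq [CharP K p] {γ : K} (h : γ ^ p = γ) : ∃ k : ℕ, γ = k := by
  classical
  have hp : p.Prime := Fact.out
  by_contra hne
  push Not at hne
  have hne0 : (Polynomial.X ^ p - Polynomial.X : Polynomial K) ≠ 0 :=
    FiniteField.X_pow_card_sub_X_ne_zero K hp.one_lt
  have hcard : (Polynomial.X ^ p - Polynomial.X : Polynomial K).natDegree = p :=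
    FiniteField.X_pow_card_sub_X_natDegree_eq K hp.one_lt
  set s : Finset K := insert γ ((range p).image fun k : ℕ => (k : K))
  have hinj : Set.InjOn (fun k : ℕ => (k : K)) (range p : Finset ℕ) := fun a ha b hb hab =>
    CharP.natCast_injOn_Iio K p (by simpa using ha) (by simpa using hb) hab
  have hs : s.card = p + 1 := by
    rw [card_insert_of_notMem (fun hm => by
      obtain ⟨k, -, hk⟩ := mem_image.1 hm
      exact hne k hk.symm), card_image_of_injOn hinj, card_range]
  have hsub : s.val ⊆ (Polynomial.X ^ p - Polynomial.X : Polynomial K).roots := by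
    intro z hz
    have hz' : z ∈ s := hz
    rw [Polynomial.mem_roots hne0, Polynomial.IsRoot, Polynomial.eval_sub, Polynomial.eval_pow,
      Polynomial.eval_X, sub_eq_zero]
    rcases mem_insert.1 hz' with rfl | hz'
    · exact h
    · obtain ⟨k, -, rfl⟩ := mem_image.1 hz'
      have := (frobenius_def p (k : K)).symm
      rw [this, map_natCast]
  have := Polynomial.card_le_degree_of_subset_roots hsub
  omega

omit [IsUltrametricDist K] in
lemma pow_pow_eq_of_pow_eq {γ : K} (h : γ ^ p = γ) : ∀ k, γ ^ p ^ k = γ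
  | 0 => by simp
  | k + 1 => by rw [pow_succ, pow_mul, pow_pow_eq_of_pow_eq h k, h]

/-- The extra point: either deep, or with residue outside the span of the good ones. -/
lemma exists_extra {V Q : Type} [AddCommGroup V] [Module (ZMod p) V] [AddCommGroup Q]
    (ψ : V →+ Q) (W : Submodule (ZMod p) V) (hW : W ≠ ⊤) :
    ∃ v ∉ W, ψ v = 0 ∨ ∀ w ∈ W, ψ v ≠ ψ w := by
  by_cases h : ∃ v, ∀ w ∈ W, ψ v ≠ ψ w
  · obtain ⟨v, hv⟩ := h
    exact ⟨v, fun hvW => hv v hvW rfl, Or.inr hv⟩
  · push Not at h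
    obtain ⟨v, -, hv⟩ := SetLike.exists_of_lt (lt_top_iff_ne_top.2 hW)
    obtain ⟨w, hw, hvw⟩ := h v
    exact ⟨v - w, fun hmem => hv (by simpa using W.add_mem hmem hw),
      Or.inl (by rw [map_sub, hvw, sub_self])⟩

theorem exists_good_basis_aux {h r δ : ℕ} [CharP K p] {V : Type} [AddCommGroup V] [Module (ZMod p) V] (val : V → K)
    {rho : ℝ} (h0 : 0 < rho)
    (hadd : ∀ a c, ‖val (a + c) - val a - val c‖ < rho)
    (hcard : Nat.card V = p ^ r)
    (hle : ∀ a, ‖val a‖ ≤ rho) (hatt : ∃ a, ‖val a‖ = rho) (hδ : δ < r)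
    (b : Fin δ → V)
    (hb : ∀ γ : Fin δ → K, (∀ i, γ i ^ p ^ h = γ i) → ‖∑ i, γ i * val (b i)‖ < rho →
      ∀ i, γ i = 0) :
    ∃ (tor : Fin r → V) (good : Finset (Fin r)) (extra : Fin r),
      (∀ c : Fin r → ℕ, ∑ i, c i • tor i = 0 → ∀ i, p ∣ c i) ∧ good.card = δ ∧
      (∀ γ : Fin r → K, (∀ i, γ i ^ p ^ h = γ i) → ‖∑ i ∈ good, γ i * val (tor i)‖ < rho →
        ∀ i ∈ good, γ i = 0) ∧ extra ∉ good ∧
      (‖val (tor extra)‖ < rho ∨ (‖val (tor extra)‖ = rho ∧ ∀ γ : Fin r → K,
        (∀ i, γ i ^ p = γ i) → ‖∑ i ∈ insert extra good, γ i * val (tor i)‖ < rho →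
          ∀ i ∈ insert extra good, γ i = 0)) ∧ ∃ i, ‖val (tor i)‖ = rho := by
  classical
  have hp : p.Prime := Fact.out
  have hfin : Finite V := (Nat.card_pos_iff.1 (by rw [hcard]; exact pow_pos hp.pos r)).2
  have : Module.Finite (ZMod p) V := Module.Finite.of_finite
  have hrank : Module.finrank (ZMod p) V = r := by
    have e := Nat.card_congr (Module.finBasis (ZMod p) V).equivFun.toEquiv
    rw [hcard, Nat.card_fun, Nat.card_zmod, Nat.card_fin] at e
    exact (Nat.pow_right_injective hp.two_le e).symm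
  -- residues modulo the open ball
  set B := ballGroup (K := K) rho h0
  let ψ : V →+ K ⧸ B := AddMonoidHom.mk' (fun a => QuotientAddGroup.mk (val a)) fun a c => by
    rw [← QuotientAddGroup.mk_add, QuotientAddGroup.eq]
    show ‖-val (a + c) + (val a + val c)‖ < rho
    have e := hadd a c
    rw [← norm_neg] at e
    convert e using 2
    congr 1
    ring
  have hψ : ∀ a : V, ψ a = 0 ↔ ‖val a‖ < rho := fun a => QuotientAddGroup.eq_zero_iff _
  have hψmk : ∀ a : V, ψ a = QuotientAddGroup.mk (val a) := fun a => rfl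
  have hlin : ∀ {ι : Type} (s : Finset ι) (c : ι → ℕ) (t : ι → V),
      ψ (∑ i ∈ s, c i • t i) = QuotientAddGroup.mk (∑ i ∈ s, (c i : K) * val (t i)) := by
    intro ι s c t
    rw [map_sum, QuotientAddGroup.mk_sum]
    refine Finset.sum_congr rfl fun i _ => ?_
    rw [map_nsmul, hψmk, ← QuotientAddGroup.mk_nsmul, nsmul_eq_mul]
  -- the given family
  let b' : Fin δ → V := b
  have hzero : ∀ c : Fin δ → ℕ, ‖∑ i, (c i : K) * val (b i)‖ < rho → ∀ i, (c i : ZMod p) = 0 := by
    intro c hc i
    have := hb (fun i => (c i : K)) (fun i => by rw [← iterateFrobenius_def, map_natCast]) hc i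
    rw [CharP.cast_eq_zero_iff K p] at this
    rwa [ZMod.natCast_eq_zero_iff]
  have hsmul : ∀ (c : ZMod p) (a : V), c • a = c.val • a := fun c a => by
    rw [← Nat.cast_smul_eq_nsmul (ZMod p), ZMod.natCast_zmod_val]
  have hbli : LinearIndependent (ZMod p) b' := by
    rw [Fintype.linearIndependent_iff]
    intro g hg i
    have e : ψ (∑ i, (g i).val • b' i) = 0 := by
      rw [← map_zero ψ, ← hg]
      exact congrArg ψ (Finset.sum_congr rfl fun j _ => (hsmul (g j) (b' j)).symm)
    rw [hlin, QuotientAddGroup.eq_zero_iff] at e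
    simpa using hzero (fun i => (g i).val) e i
  let W : Submodule (ZMod p) V := Submodule.span (ZMod p) (Set.range b')
  have hW : W ≠ ⊤ := by
    intro htop
    have h2 : Module.finrank (ZMod p) ↥W = δ := by
      rw [finrank_span_eq_card hbli, Fintype.card_fin]
    rw [htop, finrank_top, hrank] at h2
    omega
  obtain ⟨v, hvW, hv⟩ := exists_extra ψ W hW
  have hli : LinearIndependent (ZMod p) (Fin.snoc b' v) := linearIndependent_finSnoc.2 ⟨hbli, hvW⟩
  set β := Module.Basis.sumExtend hli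
  have : Fintype (Fin (δ + 1) ⊕ ↥(Module.Basis.sumExtendIndex hli)) :=
    FiniteDimensional.fintypeBasisIndex β
  have hn : Fintype.card (Fin (δ + 1) ⊕ ↥(Module.Basis.sumExtendIndex hli)) = r := by
    rw [← Module.finrank_eq_card_basis β, hrank]
  let eq := Fintype.equivFinOfCardEq hn
  set t : Fin r → V := fun i => β (eq.symm i) with ht
  have hbasis : ∀ j, β (Sum.inl j) = (Fin.snoc b' v : Fin (δ + 1) → V) j := fun j => by
    simp [β, Module.Basis.sumExtend]
    rfl
  let emb : Fin δ ↪ Fin r :=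
    ⟨fun j => eq (Sum.inl j.castSucc), fun a c hac => by simpa using hac⟩
  set extra : Fin r := eq (Sum.inl (Fin.last δ))
  have hemb : ∀ j, t (emb j) = b' j := fun j => by
    change β (eq.symm (eq (Sum.inl j.castSucc))) = _
    rw [Equiv.symm_apply_apply, hbasis, Fin.snoc_castSucc]
  have hext : t extra = v := by
    change β (eq.symm (eq (Sum.inl (Fin.last δ)))) = _
    rw [Equiv.symm_apply_apply, hbasis, Fin.snoc_last]
  have hnot : extra ∉ univ.map emb := by
    rw [mem_map]
    rintro ⟨j, -, hj⟩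
    exact (Fin.castSucc_lt_last j).ne (Sum.inl_injective (eq.injective hj))
  refine ⟨t, univ.map emb, extra, ?_, by simp, ?_, hnot, ?_, ?_⟩
  · intro c hc i
    have hbli' : LinearIndependent (ZMod p) t := β.linearIndependent.comp _ eq.symm.injective
    rw [Fintype.linearIndependent_iff] at hbli'
    have := hbli' (fun i => (c i : ZMod p)) (by
      simpa [Nat.cast_smul_eq_nsmul] using hc) i
    rwa [ZMod.natCast_eq_zero_iff] at this
  · intro γ hγ hsum i hi
    obtain ⟨j, -, rfl⟩ := mem_map.1 hi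
    refine hb (fun j => γ (emb j)) (fun j => hγ _) ?_ j
    rw [sum_map] at hsum
    simpa [hemb] using hsum
  · rcases hv with hv | hv
    · left
      rw [hext]
      exact (hψ v).1 hv
    · right
      have hv0 : ψ v ≠ 0 := by simpa using hv 0 W.zero_mem
      refine ⟨?_, ?_⟩
      · rw [hext]
        exact le_antisymm (hle v) (not_lt.1 fun hlt => hv0 ((hψ v).2 hlt))
      · intro γ hγ hsum
        choose k hk using fun i => exists_natCast_of_pow_eq (p := p) (hγ i)
        rw [sum_insert hnot, sum_map] at hsum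
        have hmem : k extra • ψ v + ψ (∑ j, k (emb j) • b' j) = 0 := by
          rw [hlin, hψmk, ← QuotientAddGroup.mk_nsmul, ← QuotientAddGroup.mk_add,
            QuotientAddGroup.eq_zero_iff]
          show ‖_‖ < rho
          simpa [hk, hext, hemb, nsmul_eq_mul] using hsum
        have hex : γ extra = 0 := by
          rw [hk, CharP.cast_eq_zero_iff K p]
          by_contra hnd
          have hu : IsUnit (k extra : ZMod p) := by
            rw [isUnit_iff_ne_zero, ne_eq, ZMod.natCast_eq_zero_iff]; exact hnd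
          obtain ⟨u, hu⟩ := hu
          set w : V := -((↑u⁻¹ : ZMod p).val • ∑ j, k (emb j) • b' j)
          refine hv w (W.neg_mem (W.smul_of_tower_mem _ (W.sum_mem fun j _ =>
            W.smul_of_tower_mem _ (Submodule.subset_span ⟨j, rfl⟩)))) ?_
          have e1 : ((↑u⁻¹ : ZMod p).val * k extra) • v = v := by
            rw [← Nat.cast_smul_eq_nsmul (ZMod p), Nat.cast_mul, ZMod.natCast_zmod_val, ← hu,
              Units.inv_mul, one_smul]
          calc ψ v = ψ (((↑u⁻¹ : ZMod p).val * k extra) • v) := by rw [e1]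
            _ = (↑u⁻¹ : ZMod p).val • (k extra • ψ v) := by rw [map_nsmul, mul_nsmul']
            _ = ψ w := by
              rw [eq_neg_of_add_eq_zero_left hmem, map_neg, map_nsmul, neg_nsmul]
        intro i hi
        rcases mem_insert.1 hi with rfl | hi
        · exact hex
        · obtain ⟨j, -, rfl⟩ := mem_map.1 hi
          refine hb (fun j => γ (emb j)) (fun j => pow_pow_eq_of_pow_eq (hγ _) h) ?_ j
          rw [hex, zero_mul, zero_add] at hsum
          simpa [hemb] using hsum
  · by_contra hne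
    push Not at hne
    obtain ⟨a, hanorm⟩ := hatt
    have hall : ∀ i, ψ (β i) = 0 := fun i => (hψ _).2 (by
      have := lt_of_le_of_ne (hle (β i)) (by simpa [t] using hne (eq i))
      exact this)
    have hz : ψ a = 0 := by
      rw [← β.sum_repr a, map_sum]
      exact Finset.sum_eq_zero fun i _ => by rw [hsmul, map_nsmul, hall, nsmul_zero]
    exact absurd ((hψ _).1 hz) (by simp [hanorm])

variable [CompleteSpace K]

lemma norm_add_sub_lt {G : FormalGroup K} [hG : Fact (IntegralSeries G.toPowerSeries)] {rho : ℝ}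
    (h0 : 0 < rho) (h1 : rho < 1) {a b : Pt G} (ha : ‖a.val‖ ≤ rho) (hb : ‖b.val‖ ≤ rho) :
    ‖(a + b).val - a.val - b.val‖ < rho := by
  classical
  have hv : ∀ j, ‖(![a.val, b.val] : Fin 2 → K) j‖ < 1 := norm_pair_lt a.small b.small
  set L : MvPowerSeries (Fin 2) K := G.toPowerSeries - MvPowerSeries.X 0 - MvPowerSeries.X 1
  have hL : ‖ev L ![a.val, b.val]‖ ≤ rho ^ 2 := by
    refine norm_ev_le_pow ((hG.out.sub (IntegralSeries.X 0)).sub (IntegralSeries.X 1)) ?_ h0.le h1.le
      (Fin.forall_fin_two.2 ⟨ha, hb⟩)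
    intro d hd
    rw [Finsupp.degree_eq_sum, Fin.sum_univ_two] at hd
    have hd' : d = 0 ∨ d = Finsupp.single 0 1 ∨ d = Finsupp.single 1 1 := by
      rcases Nat.eq_zero_or_pos (d 0) with h | h
      · rcases Nat.eq_zero_or_pos (d 1) with h' | h'
        · left; ext i; fin_cases i <;> simp [h, h']
        · right; right; ext i; fin_cases i <;> simp <;> omega
      · right; left; ext i; fin_cases i <;> simp <;> omega
    rw [map_sub, map_sub, MvPowerSeries.coeff_X, MvPowerSeries.coeff_X]
    rcases hd' with rfl | rfl | rfl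
    · simp [G.zero_constantCoeff, eq_comm (a := (0 : Fin 2 →₀ ℕ))]
    · simp [G.lin_coeff_X, Finsupp.single_eq_single_iff]
    · simp [G.lin_coeff_Y, Finsupp.single_eq_single_iff]
  have hc := conv_of_integral hG.out hv
  rw [ev_sub (hc.sub (conv_X _ _)) (conv_X _ _), ev_sub hc (conv_X _ _), ev_X, ev_X] at hL
  rw [Pt.val_add]
  refine lt_of_le_of_lt (by simpa using hL) ?_
  nlinarith

theorem exists_good_basis {h r δ : ℕ} [CharP K p] (hh : 1 ≤ h) {G : FormalGroup K} [G.IsComm]
    [Fact (IntegralSeries G.toPowerSeries)] (S : AddSubgroup (Pt G))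
    (hcard : Nat.card S = p ^ r) (hexp : ∀ a ∈ S, p • a = 0) {rho : ℝ} (h0 : 0 < rho)
    (h1 : rho < 1) (hle : ∀ a ∈ S, ‖a.val‖ ≤ rho) (hatt : ∃ a ∈ S, ‖a.val‖ = rho) (hδ : δ < r)
    (b : Fin δ → Pt G) (hbS : ∀ i, b i ∈ S)
    (hb : ∀ γ : Fin δ → K, (∀ i, γ i ^ p ^ h = γ i) → ‖∑ i, γ i * (b i).val‖ < rho →
      ∀ i, γ i = 0) :
    ∃ (tor : Fin r → Pt G) (good : Finset (Fin r)) (extra : Fin r), (∀ i, tor i ∈ S) ∧
      (∀ c : Fin r → ℕ, ∑ i, c i • tor i = 0 → ∀ i, p ∣ c i) ∧ good.card = δ ∧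
      (∀ γ : Fin r → K, (∀ i, γ i ^ p ^ h = γ i) → ‖∑ i ∈ good, γ i * (tor i).val‖ < rho →
        ∀ i ∈ good, γ i = 0) ∧ extra ∉ good ∧
      (‖(tor extra).val‖ < rho ∨ (‖(tor extra).val‖ = rho ∧ ∀ γ : Fin r → K,
        (∀ i, γ i ^ p = γ i) → ‖∑ i ∈ insert extra good, γ i * (tor i).val‖ < rho →
          ∀ i ∈ insert extra good, γ i = 0)) ∧ ∃ i, ‖(tor i).val‖ = rho := by
  let mo : Module (ZMod p) S :=
    AddCommGroup.zmodModule fun a => Subtype.ext (by simpa using hexp a.1 a.2)
  obtain ⟨tor, good, extra, h2, h3, h4, h5, h6, h7⟩ :=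
    exists_good_basis_aux (fun a : S => a.1.val) h0
      (fun a c => norm_add_sub_lt h0 h1 (hle _ a.2) (hle _ c.2)) hcard
      (fun a => hle _ a.2)
      (let ⟨a, ha, e⟩ := hatt; ⟨⟨a, ha⟩, e⟩) hδ (fun i => ⟨b i, hbS i⟩) hb
  exact ⟨fun i => (tor i).1, good, extra, fun i => (tor i).2,
    fun c hc => h2 c (Subtype.ext (by simpa using hc)), h3, h4, h5, h6, h7⟩

end Vale.Agent.P217.Point

end
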