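import Vale.Agent.P217.Point.Jacobian
import Vale.Agent.P217.Point.Chart
import Vale.Agent.P217.Point.Residues
import Vale.Agent.P217.Point.Roots
import Vale.Agent.P217.Point.Selection
import Vale.Agent.P217.SpecField

/-!
P217, POINT: a good valued point of a prime above `I_h` avoiding `u_h`.
-/

noncomputable section

namespace Vale.Agent.P217.Point

open Finset IsLocalRing

/-- Independence of vectors survives a field homomorphism. -/
lemma linearIndependent_map {L K : Type} [Field L] [Field K] (ψ : L →+* K) {s r : ℕ}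
    {A : Fin s → Fin r → L} (hA : LinearIndependent L A) :
    LinearIndependent K fun i j => ψ (A i j) := by
  classical
  obtain ⟨g, hg⟩ := (Fintype.linearCombination L A).exists_leftInverse_of_injective
    (LinearMap.ker_eq_bot.2 (linearIndependent_iff_injective_fintypeLinearCombination.1 hA))
  have hAB : ∀ i k, ∑ j, A i j * g (Pi.single j 1) k = (Pi.single i 1 : Fin s → L) k := fun i k => by
    have h1 := LinearMap.congr_fun hg (Pi.single i 1)
    rw [LinearMap.comp_apply, Fintype.linearCombination_apply_single, one_smul,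
      LinearMap.id_apply, pi_eq_sum_univ' (A i), map_sum] at h1
    rw [← h1, Finset.sum_apply]
    exact sum_congr rfl fun j _ => by rw [map_smul, Pi.smul_apply, smul_eq_mul]
  rw [Fintype.linearIndependent_iff]
  intro c hc k
  have h2 : ∑ j, (∑ i, c i * ψ (A i j)) * ψ (g (Pi.single j 1) k) = c k := by
    simp only [sum_mul, mul_assoc]
    rw [sum_comm]
    simp only [← mul_sum, ← map_mul, ← map_sum, hAB]
    rw [sum_eq_single k (fun i _ hi => by rw [Pi.single_eq_of_ne hi.symm, map_zero, mul_zero])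
      (fun hk => absurd (mem_univ k) hk), Pi.single_eq_same, map_one, mul_one]
  rw [← h2]
  refine sum_eq_zero fun j _ => ?_
  have h3 := congrFun hc j
  rw [Finset.sum_apply] at h3
  simp only [Pi.smul_apply, smul_eq_mul, Pi.zero_apply] at h3
  rw [h3, zero_mul]

/-- Values on the ideal spanned by elements of norm at most `ρ`. -/
lemma norm_le_of_mem_span {A K : Type} [CommRing A] [NormedField K] [IsUltrametricDist K]
    (x : A →+* K) (hx : ∀ a, ‖x a‖ ≤ 1) {N : ℕ} {z : Fin N → A} {ρ : ℝ} (hρ : 0 ≤ ρ)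
    (hz : ∀ i, ‖x (z i)‖ ≤ ρ) {a : A} (ha : a ∈ Ideal.span (Set.range z)) : ‖x a‖ ≤ ρ := by
  obtain ⟨c, rfl⟩ := Ideal.mem_span_range_iff_exists_fun.1 ha
  rw [map_sum]
  refine IsUltrametricDist.norm_sum_le_of_forall_le_of_nonneg hρ fun i _ => ?_
  rw [map_mul, norm_mul]
  exact (mul_le_of_le_one_left (norm_nonneg _) (hx _)).trans (hz i)

section Moore

variable {p n h : ℕ} [Fact p.Prime]

/-- A point where the good residues are independent. -/
theorem exists_residue_point (hR : RankOneStatement) (hh : 1 ≤ h) {R R₁ : Type} [CommRing R]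
    [IsDomain R] [IsLocalRing R] [IsNoetherianRing R] [CommRing R₁] [IsDomain R₁] [Algebra R R₁]
    [Module.Finite R R₁] [CharP R p] [CharP R₁ p] {N₀ r₀ δ d₀ : ℕ} {u : Fin r₀ → R}
    {z : Fin N₀ → R₁} (hT : Tied u z d₀) (hu : ∃ j, u j ≠ 0)
    (hperf : ∀ e (a : R), ∃ c, a - c ^ p ^ e ∈ maximalIdeal R)
    (hfrob : ∀ e, ∃ s : Finset R, ∀ a, ∃ c : R → R, a = ∑ g ∈ s, c g ^ p ^ e * g)
    (u' : Fin δ → R)
    (hind : ∀ e (c : (Fin δ → Fin (p ^ e)) → R),
      ∑ α, c α ^ p ^ e * ∏ l, u' l ^ (α l : ℕ) = 0 → ∀ α, c α = 0) :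
    ∃ (K : Type) (_ : NormedField K) (_ : CompleteSpace K) (x : R₁ →+* K) (i₀ : Fin N₀)
      (S : Fin δ → Fin N₀), IsUltrametricDist K ∧ IsAlgClosed K ∧ Function.Injective x ∧
        (∀ b, ‖x b‖ ≤ 1) ∧ 0 < ‖x (z i₀)‖ ∧ ‖x (z i₀)‖ < 1 ∧
        (∀ i, ‖x (z i)‖ ≤ ‖x (z i₀)‖) ∧
        ‖moore (fun i => x (z i)) (p ^ h) S‖ =
          ‖x (z i₀)‖ ^ ∑ j : Fin δ, (p ^ h) ^ (j : ℕ) := by
  classical
  have : IsNoetherianRing R₁ := IsNoetherianRing.of_finite R R₁
  set m := Ideal.span (Set.range z) with hm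
  have hP : 1 < p ^ h := Nat.one_lt_pow (by omega) (Fact.out : p.Prime).one_lt
  have hne : m ≠ ⊤ := by
    intro htop
    set I := (maximalIdeal R).map (algebraMap R R₁) with hI
    have h1 : I.radical = ⊤ := by
      rw [eq_top_iff, ← htop, hm, Ideal.span_le]
      rintro _ ⟨i, rfl⟩
      exact ⟨d₀, hT.up i⟩
    rw [Ideal.radical_eq_top] at h1
    have h2 : (⊤ : Submodule R R₁) ≤ maximalIdeal R • ⊤ := by
      intro y _
      rw [Ideal.smul_top_eq_map, Submodule.restrictScalars_mem, ← hI, h1]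
      trivial
    have h3 := Submodule.eq_bot_of_le_smul_of_le_jacobson_bot (maximalIdeal R) ⊤
      Module.Finite.fg_top h2 (IsLocalRing.maximalIdeal_le_jacobson _)
    have h4 : (1 : R₁) ∈ (⊥ : Submodule R R₁) := h3 ▸ Submodule.mem_top
    exact one_ne_zero ((Submodule.mem_bot R).1 h4)
  obtain ⟨i₁, hi₁⟩ : ∃ i, z i ≠ 0 := by
    obtain ⟨j, hj⟩ := hu
    by_contra hz
    push Not at hz
    refine hj (hT.inj ?_)
    rw [map_zero, ← Ideal.mem_bot]
    refine (Ideal.span_le.2 ?_) (hT.down j)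
    rintro _ ⟨i, rfl⟩
    simp [hz i]
  rcases Nat.eq_zero_or_pos δ with rfl | hδ
  · obtain ⟨i₀, hi₀⟩ := exists_pow_notMem z hne hi₁
    obtain ⟨K, i1, i2, x, hult, hac, hinj, hle, hlt, hzle, -⟩ := exists_chart_point (D := 0) hR
      (mul_one (z i₀)).symm (by simp) fun k => by simpa using hi₀ k
    have hz0 : z i₀ ≠ 0 := fun h0 => hi₀ 1 (by simp [h0])
    refine ⟨K, i1, i2, x, i₀, Fin.elim0, hult, hac, hinj, hle,
      norm_pos_iff.2 ((map_ne_zero_iff x hinj).2 hz0), hlt, hzle, ?_⟩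
    simp [moore]
  · obtain ⟨S, -, hS⟩ := exists_moore_notMem p hT hP hδ hperf hfrob u' hind
    obtain ⟨M', hM, hM'⟩ := exists_moore_eq_mul hP.le z S ⟨0, hδ⟩
    set D := ∑ j : Fin δ, (p ^ h) ^ (j : ℕ) with hD
    have hD1 : D - 1 + 1 = D := Nat.sub_add_cancel
      ((Nat.one_le_pow _ _ (Nat.zero_lt_of_lt hP)).trans
        (single_le_sum (f := fun j : Fin δ => (p ^ h) ^ (j : ℕ)) (fun _ _ => Nat.zero_le _)
          (mem_univ ⟨0, hδ⟩)))
    obtain ⟨K, i1, i2, x, hult, hac, hinj, hle, hlt, hzle, hMn⟩ :=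
      exists_chart_point hR hM hM' fun k => by rw [hD1]; exact hS k
    refine ⟨K, i1, i2, x, S ⟨0, hδ⟩, S, hult, hac, hinj, hle, ?_, hlt, hzle, ?_⟩
    · refine norm_pos_iff.2 ((map_ne_zero_iff x hinj).2 fun h0 => hS 1 ?_)
      rw [pow_one, hM, h0, zero_mul]
      exact zero_mem _
    · rw [← map_moore, hMn, hD1]

end Moore

end Vale.Agent.P217.Point

namespace Vale.Agent.P217

open Finset IsLocalRing Point

variable {p n : ℕ} [Fact p.Prime]

/-- Block F1: the good point. -/
theorem point (hFacts : FactsStatement p n) (hR : RankOneStatement) : PointStatement p n := by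
  intro F hF e he h hh hn P hP hle hu hne
  classical
  obtain ⟨hlaw, hfe⟩ := hFacts F hF
  obtain ⟨hhom, hE⟩ := hfe e he
  have hker : heightIdeal p n h = RingHom.ker (redHeight p n h) := heightIdeal_eq_ker hh hn.le
  set Q := P.map (redHeight p n h) with hQ
  have : Q.IsPrime := Ideal.map_isPrime_of_surjective (redHeight_surjective h) (hker ▸ hle)
  have hmem : ∀ a, redHeight p n h a ∈ Q ↔ a ∈ P := fun a => by
    rw [hQ, ← Ideal.mem_comap, Ideal.comap_map_of_surjective _ (redHeight_surjective (p := p) (n := n) h),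
      ← RingHom.ker_eq_comap_bot, ← hker, sup_eq_left.2 hle]
  have hQ0 : Q ≠ ⊥ := fun h0 => hne (le_antisymm (fun a ha => by
    have h1 : redHeight p n h a ∈ (⊥ : Ideal (Ser p n h)) := h0 ▸ (hmem a).2 ha
    rw [hker, RingHom.mem_ker]
    exact Ideal.mem_bot.1 h1) hle)
  have : IsLocalRing (Ser p n h ⧸ Q) :=
    IsLocalRing.of_surjective' (Ideal.Quotient.mk Q) Ideal.Quotient.mk_surjective
  obtain ⟨δ, hδ, ⟨f, hfQ, hfli⟩, u', hu'⟩ := exists_jacobian Q hh hQ0
  obtain ⟨W, ε, hε, hg, hW, hdeg, hlow⟩ := exists_weierstrass hE hn.le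
  obtain ⟨R₁, i1, i2, i3, i4, z, hT, hprod⟩ := exists_upstairs hh hn hE Q hg hW hdeg hlow
  have hcharR := charP_quotient Q
  have : CharP R₁ p := charP_of_injective_ringHom hT.inj p
  have hugen : ∃ j, gens hh Q j ≠ 0 := by
    refine ⟨⟨0, by omega⟩, fun h0 => hu ((hmem _).1 ?_)⟩
    have h1 := Ideal.Quotient.eq_zero_iff_mem.1 h0
    have h2 : redHeight p n h (par p n h) = MvPowerSeries.X (highVar h hh ⟨0, by omega⟩) := by
      rw [show par p n h = MvPowerSeries.X (slot n h hh ⟨0, by omega⟩) by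
        rw [par, dif_pos ⟨hh, hn⟩]
        exact congrArg MvPowerSeries.X (Fin.ext (by simp [slot]))]
      ext d
      rw [coeff_redHeight, MvPowerSeries.coeff_X, MvPowerSeries.coeff_X,
        show slot n h hh ⟨0, by omega⟩ =
          (Function.Embedding.subtype _) (highVar h hh ⟨0, by omega⟩) from rfl,
        ← Finsupp.embDomain_single]
      simp only [Finsupp.embDomain_inj]
      split_ifs <;> simp
    rwa [h2]
  obtain ⟨K, iK1, iK2, x₀, i₀, S, hult, hac, hinj, hle₀, hρ0, hρ1, hzle, hdet⟩ :=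
    exists_residue_point (p := p) (h := h) hR hh hT hugen
      (fun e a => exists_pow_char_approx Q hh e a) (exists_frobenius_generators Q) u' hu'
  have : CharP K p := charP_of_injective_ringHom hinj p
  let φ : Ser p n h ⧸ Q →+* K := x₀.comp (algebraMap _ R₁)
  have hφ : Function.Injective φ := hinj.comp hT.inj
  let y : Ser p n h →+* K := φ.comp (Ideal.Quotient.mk Q)
  let x : LT p n →+* K := y.comp (redHeight p n h)
  have hy1 : ∀ a, ‖y a‖ ≤ 1 := fun a => hle₀ _
  have hx1 : ∀ a, ‖x a‖ ≤ 1 := fun a => hle₀ _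
  have hxker : ∀ a, x a = 0 ↔ a ∈ P := fun a => by
    rw [← hmem a, ← Ideal.Quotient.eq_zero_iff_mem, ← map_eq_zero_iff φ hφ]
    rfl
  have hzlt : ∀ i, ‖x₀ (z i)‖ < 1 := fun i => (hzle i).trans_lt hρ1
  have hxlt : ∀ a ∈ maximalIdeal (LT p n), ‖x a‖ < 1 := fun a ha => by
    refine lt_of_le_of_lt (norm_le_of_mem_span x₀ hle₀ hρ0.le hzle ?_) hρ1
    have h1 : Ideal.Quotient.mk Q (redHeight p n h a) ∈ maximalIdeal (Ser p n h ⧸ Q) := by
      rw [maximalIdeal_quotient hh Q]
      have h2 : MvPowerSeries.constantCoeff (redHeight p n h a) = 0 := by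
        rw [constantCoeff_redHeight]
        by_contra h0
        exact (mem_maximalIdeal a).1 ha (MvPowerSeries.isUnit_iff_constantCoeff.2
          (WittVector.isUnit_of_coeff_zero_ne_zero _ h0))
      have h3 := Ideal.mem_map_of_mem (Ideal.Quotient.mk Q)
        (Vale.Agent.P202.sub_C_constantCoeff_mem_span_X (redHeight p n h a))
      rw [h2, map_zero, sub_zero, Ideal.map_span, ← Set.range_comp] at h3
      refine (Ideal.span_le.2 ?_ : _ ≤ _) h3
      rintro _ ⟨i, rfl⟩
      obtain ⟨j, rfl⟩ := (highVar_bijective h hh).surjective i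
      exact Ideal.subset_span ⟨j, rfl⟩
    rw [hT.gen] at h1
    refine Ideal.mem_comap.1 ((Ideal.span_le.2 ?_ : Ideal.span (Set.range (gens hh Q)) ≤
      (Ideal.span (Set.range z)).comap (algebraMap _ R₁)) h1)
    rintro _ ⟨j, rfl⟩
    exact hT.down j
  have hxu : x (par p n h) ≠ 0 := fun h0 => hu ((hxker _).1 h0)
  have hprodK : W.map y = ∏ i, (Polynomial.X - Polynomial.C (x₀ (z i))) := by
    have h1 := congrArg (Polynomial.map x₀) hprod
    rw [Polynomial.map_map, Polynomial.map_prod] at h1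
    refine h1.trans (prod_congr rfl fun i _ => ?_)
    rw [Polynomial.map_sub, Polynomial.map_X, Polynomial.map_C]
  have : Fact (IntegralSeries (F.map x).toPowerSeries) := ⟨integral_lawAt hx1⟩
  have : (F.map x).IsComm := isComm_map hlaw x
  obtain ⟨T, hTcard, hTexp, hTroot, hTex, hTall⟩ := exists_root_group hh hn hF he hhom hE
    (x := x) y rfl hy1 hxu hε hg (fun i => x₀ (z i)) hprodK hzlt
  obtain ⟨w₀, hw₀T, hw₀⟩ := hTex i₀
  set rho := ‖w₀.val‖ with hrho
  have hPne : p ^ h ≠ 0 := pow_ne_zero _ (Fact.out : p.Prime).ne_zero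
  have hrhoP : rho ^ p ^ h = ‖x₀ (z i₀)‖ := by rw [hrho, ← norm_pow, hw₀]
  have hrho0 : 0 < rho := (norm_nonneg _).lt_of_ne fun h0 => hρ0.ne (by
    rw [← hrhoP, show rho = 0 from h0.symm, zero_pow hPne])
  have hTle : ∀ a ∈ T, ‖a.val‖ ≤ rho := fun a ha => by
    obtain ⟨i, hi⟩ := hTall a ha
    rw [← pow_le_pow_iff_left₀ (norm_nonneg _) hrho0.le hPne, ← norm_pow, hi, hrhoP]
    exact hzle i
  choose b hbT hb using fun j => hTex (S j)
  obtain ⟨tor, good, extra, htorT, hind, hgc, hgood, hex, hexc, hatt⟩ :=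
    exists_good_basis hh T hTcard hTexp hrho0 w₀.small hTle ⟨w₀, hw₀T, rfl⟩ hδ b hbT
      (fun γ hγ hsmall j => residues_indep (z := fun i => x₀ (z i)) hh rfl S hρ0 hzle hdet γ hγ
        (by
          have h1 := pow_lt_pow_left₀ hsmall (norm_nonneg _) hPne
          rw [hrhoP, ← norm_pow, sum_pow_char_pow] at h1
          refine lt_of_eq_of_lt ?_ h1
          congr 1
          exact sum_congr rfl fun i _ => by rw [mul_pow, hγ, hb]) j)
  have hind' : ∀ c, combination (lawAt p n F x) c (fun i => (tor i).val) = 0 → ∀ i, p ∣ c i := by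
    intro c hc
    rw [lawAt_eq_map, Pt.combination_eq_sum] at hc
    exact hind c (Pt.ext hc)
  choose eqn heqn using fun i => redHeight_surjective (p := p) (n := n) h (f i)
  refine ⟨K, iK1, iK2, hult, hac, inferInstance, ⟨{
    x := x
    norm_le := hx1
    norm_lt := hxlt
    ker_eq := hxker
    tor := fun i => (tor i).val
    tor_small := fun i => (tor i).small
    tor_root := fun i => hTroot _ (htorT i)
    tor_indep := hind'
    rho := rho
    rho_pos := hrho0
    tor_le := fun i => hTle _ (htorT i)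
    rho_attained := hatt
    delta := δ
    delta_lt := hδ
    good := good
    good_card := hgc
    good_indep := hgood
    extra := extra
    extra_not_mem := hex
    extra_cond := hexc
    eqn := eqn
    eqn_mem := fun i => (hmem _).1 (heqn i ▸ hfQ i)
    eqn_indep := ?_ }⟩⟩
  have h1 := linearIndependent_map (IsFractionRing.lift hφ) hfli
  have h2 : (fun (i : Fin (n - h - δ)) (j : Fin (n - h)) =>
      x (MvPowerSeries.pderiv (WittVector p (Res p n)) (slot n h hh j) (eqn i))) =
    fun i j => IsFractionRing.lift hφ (algebraMap (Ser p n h ⧸ Q) (FractionRing (Ser p n h ⧸ Q))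
      (Ideal.Quotient.mk Q (MvPowerSeries.pderiv (Res p n) (highVar h hh j) (f i)))) := by
    funext i j
    rw [IsFractionRing.lift_algebraMap, ← heqn i, ← redHeight_pderiv hh j]
    rfl
  rw [h2]
  exact h1

end Vale.Agent.P217
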