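import Vale.Agent.P217.Point.Base
import Vale.Agent.P217.Point.Bound

/-!
P217, POINT: the ring generated over `E/P` by the roots of the Weierstrass polynomial.
-/

noncomputable section

namespace Vale.Agent.P217.Point

open IsLocalRing Finset

variable {p n h : ℕ} [Fact p.Prime]

/-- The images of the variables `u_h, …, u_{n-1}`. -/
def gens (hh : 1 ≤ h) (Q : Ideal (Ser p n h)) (j : Fin (n - h)) : Ser p n h ⧸ Q :=
  Ideal.Quotient.mk Q (MvPowerSeries.X (highVar h hh j))

lemma maximalIdeal_quotient (hh : 1 ≤ h) (Q : Ideal (Ser p n h)) [Q.IsPrime]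
    [IsLocalRing (Ser p n h ⧸ Q)] :
    maximalIdeal (Ser p n h ⧸ Q) = Ideal.span (Set.range (gens hh Q)) := by
  have hrange : Set.range (MvPowerSeries.X : High n h → Ser p n h) =
      Set.range fun j : Fin (n - h) => MvPowerSeries.X (highVar h hh j) :=
    ((highVar_bijective h hh).surjective.range_comp
      (MvPowerSeries.X : High n h → Ser p n h)).symm
  have hmap : (maximalIdeal (Ser p n h)).map (Ideal.Quotient.mk Q) =
      Ideal.span (Set.range (gens hh Q)) := by
    rw [Vale.Agent.P202.maximalIdeal_mvPowerSeries, hrange, Ideal.map_span, ← Set.range_comp]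
    rfl
  rw [← hmap]
  refine le_antisymm (fun a ha => ?_) (le_maximalIdeal fun htop => ?_)
  · obtain ⟨f, rfl⟩ := Ideal.Quotient.mk_surjective a
    exact Ideal.mem_map_of_mem _ ((mem_maximalIdeal f).2 fun hu =>
      (mem_maximalIdeal _).1 ha (hu.map _))
  · have h1 := congrArg (Ideal.comap (Ideal.Quotient.mk Q)) htop
    rw [Ideal.comap_map_of_surjective _ Ideal.Quotient.mk_surjective, Ideal.comap_top,
      ← RingHom.ker_eq_comap_bot, Ideal.mk_ker,
      sup_eq_left.2 (IsLocalRing.le_maximalIdeal (Ideal.IsPrime.ne_top ‹_›))] at h1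
    exact (maximalIdeal.isMaximal (Ser p n h)).ne_top h1

/-- A finite extension containing all roots of the Weierstrass polynomial. -/
theorem exists_upstairs (hh : 1 ≤ h) (hn : h < n) {e : PowerSeries (LT p n)}
    (hf : PSeriesFacts p n e) (Q : Ideal (Ser p n h)) [Q.IsPrime] [IsLocalRing (Ser p n h ⧸ Q)]
    {W : Polynomial (Ser p n h)} {ε : PowerSeries (Ser p n h)}
    (hg : gser h e = (W : PowerSeries (Ser p n h)) * ε) (hW : W.Monic)
    (hdeg : W.natDegree = p ^ (n - h))
    (hlow : ∀ m < p ^ (n - h), W.coeff m ∈ maximalIdeal (Ser p n h)) :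
    ∃ (R₁ : Type) (_ : CommRing R₁) (_ : IsDomain R₁) (_ : Algebra (Ser p n h ⧸ Q) R₁)
      (_ : Module.Finite (Ser p n h ⧸ Q) R₁) (z : Fin (p ^ (n - h)) → R₁),
      Tied (gens hh Q) z (p ^ (n - h)) ∧
      W.map ((algebraMap (Ser p n h ⧸ Q) R₁).comp (Ideal.Quotient.mk Q)) =
        ∏ i, (Polynomial.X - Polynomial.C (z i)) := by
  classical
  set R := Ser p n h ⧸ Q with hR
  let P₀ : Polynomial (FractionRing R) :=
    W.map ((algebraMap R (FractionRing R)).comp (Ideal.Quotient.mk Q))
  let L := P₀.SplittingField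
  set π : Ser p n h →+* L := (algebraMap R L).comp (Ideal.Quotient.mk Q) with hπ
  have hWL : W.map π = P₀.map (algebraMap (FractionRing R) L) := by
    rw [Polynomial.map_map, hπ, ← RingHom.comp_assoc, ← IsScalarTower.algebraMap_eq]
  have hsp : (W.map π).Splits := hWL ▸ Polynomial.SplittingField.splits P₀
  have hcard : (W.map π).roots.card = p ^ (n - h) := by
    rw [← hsp.natDegree_eq_card_roots, hW.natDegree_map, hdeg]
  let l := (W.map π).roots.toList
  have hl : l.length = p ^ (n - h) := by rw [Multiset.length_toList, hcard]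
  let zL : Fin (p ^ (n - h)) → L := fun i => l.get (i.cast hl.symm)
  have hprod : W.map π = ∏ i, (Polynomial.X - Polynomial.C (zL i)) := by
    rw [hsp.eq_prod_roots_of_monic (hW.map π), ← Multiset.coe_toList (W.map π).roots,
      Multiset.map_coe, Multiset.prod_coe, ← Fin.prod_univ_getElem]
    refine (Fintype.prod_equiv (finCongr (by rw [List.length_map]; exact hl)) _ _ fun i => ?_)
    simp [zL, l]
  let R₁ := Algebra.adjoin R (Set.range zL)
  let : CommRing R₁ := Subalgebra.toCommRing R₁
  have hint : ∀ i, IsIntegral R (zL i) := fun i => by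
    refine ⟨W.map (Ideal.Quotient.mk Q), hW.map _, ?_⟩
    rw [← Polynomial.eval_map, Polynomial.map_map, ← hπ, hprod, Polynomial.eval_prod]
    refine prod_eq_zero (mem_univ i) ?_
    simp
  have hfin : Module.Finite R R₁ := Module.Finite.iff_fg.2
    (fg_adjoin_of_finite (Set.finite_range zL) fun x hx => by
      obtain ⟨i, rfl⟩ := hx; exact hint i)
  let z : Fin (p ^ (n - h)) → R₁ := fun i => ⟨zL i, Algebra.subset_adjoin (Set.mem_range_self i)⟩
  have hprod₁ : W.map ((algebraMap R R₁).comp (Ideal.Quotient.mk Q)) =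
      ∏ i, ((Polynomial.X : Polynomial R₁) - Polynomial.C (z i)) := by
    refine Polynomial.map_injective (R₁.val : R₁ →+* L) Subtype.val_injective ?_
    rw [Polynomial.map_map, Polynomial.map_prod]
    refine Eq.trans ?_ (hprod.trans (prod_congr rfl fun i _ => by simp [z]))
    rfl
  have hinj : Function.Injective (algebraMap R R₁) := fun a b hab => by
    have h1 : algebraMap R L a = algebraMap R L b := congrArg Subtype.val hab
    rw [IsScalarTower.algebraMap_apply R (FractionRing R) L,
      IsScalarTower.algebraMap_apply R (FractionRing R) L] at h1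
    exact IsFractionRing.injective R (FractionRing R) ((algebraMap (FractionRing R) L).injective h1)
  set m := Ideal.span (Set.range z) with hm
  set π₁ : Ser p n h →+* R₁ := (algebraMap R R₁).comp (Ideal.Quotient.mk Q) with hπ₁
  have hWm : ∀ i < p ^ (n - h), π₁ (W.coeff i) ∈ m := fun i hi => by
    rw [← Ideal.Quotient.eq_zero_iff_mem, ← Polynomial.coeff_map, ← Polynomial.coeff_map,
      hprod₁, Polynomial.map_prod,
      prod_congr rfl fun j _ => show Polynomial.map (Ideal.Quotient.mk m)
        (Polynomial.X - Polynomial.C (z j)) = Polynomial.X by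
        rw [Polynomial.map_sub, Polynomial.map_X, Polynomial.map_C,
          Ideal.Quotient.eq_zero_iff_mem.2 (Ideal.subset_span (Set.mem_range_self j)), map_zero,
          sub_zero],
      prod_const, card_univ, Fintype.card_fin, Polynomial.coeff_X_pow, if_neg hi.ne]
  have hdown : ∀ j, algebraMap R R₁ (gens hh Q j) ∈ m := by
    suffices key : ∀ i : High n h, π₁ (MvPowerSeries.X i) ∈ m from fun j => key _
    suffices key : ∀ (k : ℕ) (i : High n h), i.1.val = k → π₁ (MvPowerSeries.X i) ∈ m from
      fun i => key _ i rfl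
    intro k
    induction k using Nat.strong_induction_on with
    | _ k ih =>
      intro i hik
      have h1 : π₁ (redHeight p n h (PowerSeries.coeff (p ^ (i.1.val + 1)) e)) ∈ m := by
        have h2 : redHeight p n h (PowerSeries.coeff (p ^ (i.1.val + 1)) e) =
            PowerSeries.coeff (p ^ (i.1.val + 1 - h)) (gser h e) := by
          rw [gser, PowerSeries.coeff_mk, ← pow_add, Nat.add_sub_cancel' i.2]
        rw [h2, hg, PowerSeries.coeff_mul, map_sum]
        refine Ideal.sum_mem _ fun x hx => ?_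
        rw [map_mul, Polynomial.coeff_coe]
        refine Ideal.mul_mem_right _ _ (hWm _ ?_)
        rw [HasAntidiagonal.mem_antidiagonal] at hx
        refine lt_of_le_of_lt (le_of_le_of_eq (Nat.le_add_right _ _) hx) ?_
        exact Nat.pow_lt_pow_right (Fact.out : p.Prime).one_lt (by have := i.1.isLt; omega)
      have h3 : π₁ (redHeight p n h (PowerSeries.coeff (p ^ (i.1.val + 1)) e) -
          MvPowerSeries.X i) ∈ m := by
        refine (Ideal.span_le.2 ?_ : _ ≤ m.comap π₁) (coeff_pow_sub_mem hf)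
        rintro _ ⟨l, hl, rfl⟩
        exact ih _ (hik ▸ hl) l rfl
      rw [map_sub] at h3
      simpa using sub_mem h1 h3
  refine ⟨R₁, inferInstance, inferInstance, inferInstance, hfin, z,
    ⟨hinj, maximalIdeal_quotient hh Q, hdown, fun i => ?_, fun x => ?_⟩, hprod₁⟩
  · have h0 : (W.map π₁).eval (z i) = 0 := by
      rw [hπ₁, hprod₁, Polynomial.eval_prod]
      refine prod_eq_zero (mem_univ i) ?_
      simp
    rw [Polynomial.eval_eq_sum_range, hW.natDegree_map, hdeg, sum_range_succ,
      Polynomial.coeff_map, show W.coeff (p ^ (n - h)) = 1 from hdeg ▸ hW.coeff_natDegree,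
      map_one, one_mul] at h0
    rw [eq_neg_of_add_eq_zero_right h0]
    refine neg_mem (Ideal.sum_mem _ fun k hk => Ideal.mul_mem_right _ _ ?_)
    rw [Polynomial.coeff_map, hπ₁, RingHom.comp_apply]
    exact Ideal.mem_map_of_mem _ ((mem_maximalIdeal _).2 fun hu => by
      obtain ⟨b, hb⟩ := Ideal.Quotient.mk_surjective (↑hu.unit⁻¹ : R)
      have h1 : Ideal.Quotient.mk Q (W.coeff k * b) = 1 := by
        rw [map_mul, hb, IsUnit.mul_val_inv]
      refine (maximalIdeal.isMaximal (Ser p n h)).ne_top ((Ideal.eq_top_iff_one _).2 ?_)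
      have h2 : W.coeff k * b - 1 ∈ maximalIdeal (Ser p n h) :=
        IsLocalRing.le_maximalIdeal (Ideal.IsPrime.ne_top ‹Q.IsPrime›)
          (Ideal.Quotient.eq_zero_iff_mem.1 (by rw [map_sub, h1, map_one, sub_self]))
      simpa using sub_mem (Ideal.mul_mem_right b _ (hlow k (mem_range.1 hk))) h2)
  · suffices key : ∀ y (hy : y ∈ Algebra.adjoin R (Set.range zL)),
        ∃ a : R, (⟨y, hy⟩ : R₁) - algebraMap R R₁ a ∈ m from key x.1 x.2
    intro y hy
    induction hy using Algebra.adjoin_induction with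
    | mem y hy =>
      obtain ⟨i, rfl⟩ := hy
      refine ⟨0, ?_⟩
      rw [map_zero, sub_zero]
      exact Ideal.subset_span ⟨i, rfl⟩
    | algebraMap r =>
      refine ⟨r, ?_⟩
      rw [show (⟨algebraMap R L r, _⟩ : R₁) = algebraMap R R₁ r from rfl, sub_self]
      exact zero_mem _
    | add a b ha hb h h' =>
      obtain ⟨c, hc⟩ := h
      obtain ⟨c', hc'⟩ := h'
      refine ⟨c + c', ?_⟩
      rw [map_add, show (⟨a + b, add_mem ha hb⟩ : R₁) - (algebraMap R R₁ c + algebraMap R R₁ c') =
        (⟨a, ha⟩ - algebraMap R R₁ c) + (⟨b, hb⟩ - algebraMap R R₁ c') by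
          rw [show (⟨a + b, add_mem ha hb⟩ : R₁) = ⟨a, ha⟩ + ⟨b, hb⟩ from rfl]; ring]
      exact add_mem hc hc'
    | mul a b ha hb h h' =>
      obtain ⟨c, hc⟩ := h
      obtain ⟨c', hc'⟩ := h'
      refine ⟨c * c', ?_⟩
      rw [map_mul, show (⟨a * b, mul_mem ha hb⟩ : R₁) - algebraMap R R₁ c * algebraMap R R₁ c' =
        (⟨a, ha⟩ - algebraMap R R₁ c) * ⟨b, hb⟩ +
          algebraMap R R₁ c * (⟨b, hb⟩ - algebraMap R R₁ c') by
          rw [show (⟨a * b, mul_mem ha hb⟩ : R₁) = ⟨a, ha⟩ * ⟨b, hb⟩ from rfl]; ring]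
      exact add_mem (Ideal.mul_mem_right _ _ hc) (Ideal.mul_mem_left _ _ hc')

end Vale.Agent.P217.Point

end
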